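import Vale.Agent.P132.Fixed.Vint

/-!
# Averages over long times
-/

namespace Vale.Agent.P132.Fixed

open scoped InnerProductSpace Topology ComplexOrder ComplexConjugate
open Filter MeasureTheory

universe u

variable {H : Type u} [NormedAddCommGroup H] [InnerProductSpace ℂ H] [CompleteSpace H]
  {M : VonNeumannAlgebra H} {Ω : H} (D : ModData M Ω)

/-- A window stretched to width `T`. -/
noncomputable def scl (T : ℝ) (c : ℝ → ℂ) (t : ℝ) : ℂ := ((T⁻¹ : ℝ) : ℂ) * c (t / T)

theorem integrable_scl {T : ℝ} (hT : 0 < T) {c : ℝ → ℂ} (hc : Integrable c) :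
    Integrable (scl T c) :=
  (hc.comp_div hT.ne').const_mul _

theorem vint_U {c : ℝ → ℂ} (r : ℝ) (ξ : H) :
    vint D c (D.U r ξ) = vint D (fun t => c (t - r)) ξ := by
  rw [vint, vint, ← integral_add_right_eq_self (fun t => c (t - r) • D.U t ξ) r]
  simp [U_U]

/-- Stretched windows become invariant under translation. -/
theorem tendsto_scl_translate {c : ℝ → ℂ} (hc : Continuous c) (hci : Integrable c) {b : ℝ → ℝ}
    (hb : Integrable b) (hle : ∀ r s : ℝ, |r| ≤ 1 → ‖c (s - r)‖ ≤ b s) (r : ℝ) (ξ : H) :
    Tendsto (fun T : ℝ => vint D (scl T c) (D.U r ξ) - vint D (scl T c) ξ) atTop (𝓝 0) := by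
  have h0 : Tendsto (fun T : ℝ => ∫ u : ℝ, ‖c (u - r / T) - c u‖) atTop (𝓝 (∫ _u : ℝ, (0 : ℝ))) := by
    apply tendsto_integral_filter_of_dominated_convergence (fun u => b u + ‖c u‖)
    · exact Eventually.of_forall fun T =>
        ((hc.comp (continuous_id.sub continuous_const)).sub hc).norm.aestronglyMeasurable
    · filter_upwards [eventually_ge_atTop (|r| + 1)] with T hT
      filter_upwards with u
      rw [Real.norm_eq_abs, abs_of_nonneg (norm_nonneg _)]
      refine (norm_sub_le _ _).trans (add_le_add ?_ le_rfl)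
      apply hle
      have : 0 < T := lt_of_lt_of_le (by positivity) hT
      rw [abs_div, abs_of_pos this, div_le_one this]; linarith
    · exact hb.add hci.norm
    · filter_upwards with u
      have h1 : Tendsto (fun T : ℝ => u - r / T) atTop (𝓝 u) := by
        simpa using tendsto_const_nhds.sub (tendsto_const_nhds.div_atTop tendsto_id (a := r))
      simpa using (((hc.tendsto u).comp h1).sub_const (c u)).norm
  rw [integral_zero] at h0
  refine squeeze_zero_norm' (a := fun T => (∫ u : ℝ, ‖c (u - r / T) - c u‖) * ‖ξ‖) ?_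
    (by simpa using h0.mul_const ‖ξ‖)
  filter_upwards [eventually_gt_atTop 0] with T hT
  have hi := integrable_scl hT hci
  rw [vint_U, ← vint_sub_left D (hi.comp_sub_right r) hi]
  refine (norm_vint_le D _ _).trans_eq ?_
  congr 1
  have h := Measure.integral_comp_div (fun u => ‖c (u - r / T) - c u‖) T
  rw [abs_of_pos hT, smul_eq_mul] at h
  rw [← inv_mul_cancel_left₀ hT.ne' (∫ u : ℝ, ‖c (u - r / T) - c u‖), ← h, ← integral_const_mul]
  congr 1; ext t
  rw [scl, scl, ← mul_sub, norm_mul, Complex.norm_real, Real.norm_eq_abs,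
    abs_of_pos (inv_pos.2 hT), sub_div]

theorem norm_vint_scl_le {T : ℝ} (hT : 0 < T) (c : ℝ → ℂ) (ξ : H) :
    ‖vint D (scl T c) ξ‖ ≤ (∫ u : ℝ, ‖c u‖) * ‖ξ‖ := by
  refine (norm_vint_le D _ _).trans_eq ?_
  congr 1
  have h := Measure.integral_comp_div (fun u => ‖c u‖) T
  rw [abs_of_pos hT, smul_eq_mul] at h
  rw [← inv_mul_cancel_left₀ hT.ne' (∫ u : ℝ, ‖c u‖), ← h, ← integral_const_mul]
  congr 1; ext t
  rw [scl, norm_mul, Complex.norm_real, Real.norm_eq_abs, abs_of_pos (inv_pos.2 hT)]

/-- The span of the ranges of `U r - 1`. -/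
noncomputable def moving : Submodule ℂ H :=
  Submodule.span ℂ {v | ∃ r ξ, v = D.U r ξ - ξ}

/-- The mean ergodic theorem for windows with integral zero. -/
theorem tendsto_scl_zero {c : ℝ → ℂ} (hc : Continuous c) (hci : Integrable c) (h0 : ∫ u, c u = 0)
    {b : ℝ → ℝ} (hb : Integrable b) (hle : ∀ r s : ℝ, |r| ≤ 1 → ‖c (s - r)‖ ≤ b s) (ξ : H) :
    Tendsto (fun T : ℝ => vint D (scl T c) ξ) atTop (𝓝 0) := by
  have hmov : ∀ v ∈ moving D, Tendsto (fun T : ℝ => vint D (scl T c) v) atTop (𝓝 0) := by
    intro v hv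
    induction hv using Submodule.span_induction with
    | mem x hx =>
      obtain ⟨r, η, rfl⟩ := hx
      refine (tendsto_scl_translate D hc hci hb hle r η).congr' ?_
      filter_upwards [eventually_gt_atTop 0] with T hT
      have := vint_add D (integrable_scl hT hci) (D.U r η - η) η
      rw [sub_add_cancel] at this
      rw [this, add_sub_cancel_right]
    | zero => simp [vint]
    | add x y _ _ hx hy =>
      have := hx.add hy
      rw [add_zero] at this
      refine this.congr' ?_
      filter_upwards [eventually_gt_atTop 0] with T hT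
      exact (vint_add D (integrable_scl hT hci) x y).symm
    | smul z x _ hx =>
      have := hx.const_smul z
      rw [smul_zero] at this
      exact this.congr fun T => (vint_smul D _ z x).symm
  set K := (moving D).topologicalClosure
  have : CompleteSpace K := (Submodule.isClosed_topologicalClosure _).completeSpace_coe
  obtain ⟨y, hy, z, hz, rfl⟩ := K.exists_add_mem_mem_orthogonal ξ
  have hfix : ∀ t, D.U t z = z := by
    intro t
    apply ext_inner_left ℂ
    intro w
    have hm : D.U (-t) w - w ∈ K :=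
      Submodule.le_topologicalClosure _ (Submodule.subset_span ⟨-t, w, rfl⟩)
    have := Submodule.inner_right_of_mem_orthogonal hm hz
    rwa [inner_sub_left, sub_eq_zero, inner_U_left, neg_neg] at this
  have hz0 : ∀ T : ℝ, 0 < T → vint D (scl T c) z = 0 := by
    intro T hT
    have e : vint D (scl T c) z = (∫ t, scl T c t) • z := by
      simp only [vint, hfix]; exact integral_smul_const _ _
    rw [e]
    simp only [scl]
    rw [integral_const_mul, Measure.integral_comp_div c T, h0]
    simp
  rw [Metric.tendsto_nhds]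
  intro ε hε
  set C := ∫ u : ℝ, ‖c u‖ with hC
  have hC0 : 0 ≤ C := integral_nonneg fun _ => norm_nonneg _
  obtain ⟨v, hv, hvy⟩ := Metric.mem_closure_iff.1
    (show y ∈ closure (moving D : Set H) from hy) (ε / (2 * (C + 1))) (by positivity)
  filter_upwards [Metric.tendsto_nhds.1 (hmov v hv) (ε / 2) (by positivity),
    eventually_gt_atTop 0] with T h1 hT
  rw [dist_zero_right] at h1 ⊢
  have hi := integrable_scl hT hci
  rw [vint_add D hi y z, hz0 T hT, add_zero, ← add_sub_cancel v y, vint_add D hi]
  refine lt_of_le_of_lt (norm_add_le _ _) ?_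
  have h2 : ‖vint D (scl T c) (y - v)‖ ≤ ε / 2 := by
    refine (norm_vint_scl_le D hT c _).trans ?_
    rw [dist_eq_norm] at hvy
    calc C * ‖y - v‖ ≤ C * (ε / (2 * (C + 1))) := mul_le_mul_of_nonneg_left hvy.le hC0
      _ ≤ (C + 1) * (ε / (2 * (C + 1))) := by
          apply mul_le_mul_of_nonneg_right (by linarith); positivity
      _ = ε / 2 := by field_simp
  linarith

end Vale.Agent.P132.Fixed
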