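import Vale.Agent.P132.Fixed.Gauss
import Vale.Agent.P132.Fixed.Ergodic

/-!
# The window of the drift
-/

namespace Vale.Agent.P132.Fixed

open scoped InnerProductSpace Topology ComplexOrder ComplexConjugate
open Filter MeasureTheory

universe u

/-- `gam - gam(· + i/2)`. -/
noncomputable def kwin (T : ℝ) (t : ℝ) : ℂ := gam T t - gam T ((t : ℂ) + Complex.I / 2)

/-- The window of the drift. -/
noncomputable def dwin (T τ : ℝ) (s : ℝ) : ℂ := kwin T s * gam T (τ + s : ℝ)

/-- Its limit after stretching. -/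
noncomputable def lwin (u : ℝ) : ℂ := Complex.I / 2 * (u : ℂ) * gam 1 u * gam 1 u

/-- The dominating function. -/
noncomputable def dom (u : ℝ) : ℝ := Real.exp 9 * Real.exp (-(1 / 4) * u ^ 2)

theorem integrable_dom : Integrable dom :=
  (integrable_exp_neg_mul_sq (by norm_num)).const_mul _

theorem gam_scale {T : ℝ} (hT : T ≠ 0) (u : ℝ) : gam T (T * u : ℝ) = gam 1 u := by
  rw [gam_ofReal, gam_ofReal]; congr 3; field_simp

theorem norm_exp_sub_one (z : ℂ) : ‖Complex.exp z - 1‖ ≤ 2 * ‖z‖ * Real.exp ‖z‖ := by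
  have h1 : 1 ≤ Real.exp ‖z‖ := Real.one_le_exp (norm_nonneg _)
  rcases le_total ‖z‖ 1 with h | h
  · exact (Complex.norm_exp_sub_one_le h).trans (le_mul_of_one_le_right (by positivity) h1)
  · calc ‖Complex.exp z - 1‖ ≤ ‖Complex.exp z‖ + 1 := by simpa using norm_sub_le (Complex.exp z) 1
      _ ≤ Real.exp ‖z‖ + Real.exp ‖z‖ := by
          gcongr; rw [Complex.norm_exp]; exact Real.exp_le_exp.2 (Complex.re_le_norm z)
      _ = 2 * 1 * Real.exp ‖z‖ := by ring
      _ ≤ _ := by gcongr

/-- The exponent of the shift. -/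
noncomputable def zwin (T u : ℝ) : ℂ :=
  ((1 / (8 * T ^ 2) : ℝ) : ℂ) - Complex.I * ((u / (2 * T) : ℝ) : ℂ)

theorem kwin_scale {T : ℝ} (hT : 0 < T) (u : ℝ) :
    kwin T (T * u) = gam 1 u * (1 - Complex.exp (zwin T u)) := by
  rw [kwin, gam_shift, gam_scale hT.ne', ph, Complex.ofReal_exp, mul_left_comm, ← Complex.exp_add,
    mul_sub, mul_one]
  congr 3
  rw [zwin]; push_cast; field_simp; ring

theorem norm_zwin_le {T : ℝ} (hT : 1 ≤ T) (u : ℝ) : ‖zwin T u‖ ≤ (|u| + 1) / (2 * T) := by
  refine (norm_sub_le _ _).trans ?_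
  rw [norm_mul, Complex.norm_I, one_mul, Complex.norm_real, Complex.norm_real, Real.norm_eq_abs,
    Real.norm_eq_abs, abs_div, abs_div, abs_one, abs_of_pos (by positivity : (0:ℝ) < 8 * T ^ 2),
    abs_of_pos (by positivity : (0:ℝ) < 2 * T), add_div, add_comm]
  gcongr
  all_goals nlinarith

theorem norm_dwin_scale_le {T : ℝ} (hT : 1 ≤ T) (τ u : ℝ) :
    ‖(T : ℂ) * dwin T τ (T * u)‖ ≤ dom u := by
  have hT0 : 0 < T := by linarith
  have hz := norm_zwin_le hT u
  have hz' : ‖zwin T u‖ ≤ |u| + 1 := hz.trans (div_le_self (by positivity) (by linarith))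
  have h1 : T * ‖1 - Complex.exp (zwin T u)‖ ≤ Real.exp (2 * |u| + 1) := by
    rw [norm_sub_rev]
    calc T * ‖Complex.exp (zwin T u) - 1‖ ≤ T * (2 * ((|u| + 1) / (2 * T)) * Real.exp (|u| + 1)) :=
          mul_le_mul_of_nonneg_left ((norm_exp_sub_one _).trans (mul_le_mul (by gcongr)
            (Real.exp_le_exp.2 hz') (Real.exp_pos _).le (by positivity))) hT0.le
      _ = (|u| + 1) * Real.exp (|u| + 1) := by field_simp
      _ ≤ Real.exp |u| * Real.exp (|u| + 1) := by gcongr; exact Real.add_one_le_exp _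
      _ = _ := by rw [← Real.exp_add]; ring_nf
  rw [dwin, kwin_scale hT0, norm_mul, norm_mul, norm_mul, Complex.norm_real, Real.norm_eq_abs,
    abs_of_pos hT0, norm_gam]
  calc T * (Real.exp (-(u / 1) ^ 2 / 2) * ‖1 - Complex.exp (zwin T u)‖ *
        ‖gam T ((τ + T * u : ℝ) : ℂ)‖)
      ≤ T * (Real.exp (-(u / 1) ^ 2 / 2) * ‖1 - Complex.exp (zwin T u)‖ * 1) := by
        gcongr; exact norm_gam_le_one _ _
    _ = Real.exp (-(u / 1) ^ 2 / 2) * (T * ‖1 - Complex.exp (zwin T u)‖) := by ring
    _ ≤ Real.exp (-(u / 1) ^ 2 / 2) * Real.exp (2 * |u| + 1) := by gcongr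
    _ ≤ dom u := by
        rw [dom, ← Real.exp_add, ← Real.exp_add, Real.exp_le_exp]
        nlinarith [sq_nonneg (|u| - 4), sq_abs u]

theorem tendsto_dwin_scale (τ u : ℝ) :
    Tendsto (fun T : ℝ => (T : ℂ) * dwin T τ (T * u)) atTop (𝓝 (lwin u)) := by
  have hg : Tendsto (fun T : ℝ => gam T ((τ + T * u : ℝ) : ℂ)) atTop (𝓝 (gam 1 u)) := by
    have h : Tendsto (fun T : ℝ => τ / T + u) atTop (𝓝 u) := by
      simpa using (tendsto_const_nhds.div_atTop tendsto_id (a := τ)).add_const u
    refine (((continuous_gam 1).comp Complex.continuous_ofReal).tendsto u |>.comp h).congr' ?_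
    filter_upwards [eventually_gt_atTop 0] with T hT
    simp only [Function.comp_apply, gam_ofReal]
    congr 3; field_simp
  have hk : Tendsto (fun T : ℝ => (T : ℂ) * (1 - Complex.exp (zwin T u))) atTop
      (𝓝 (Complex.I / 2 * (u : ℂ))) := by
    rw [tendsto_iff_norm_sub_tendsto_zero]
    refine squeeze_zero_norm' (a := fun T => (1 + (|u| + 1) ^ 2) / T) ?_
      (tendsto_const_nhds.div_atTop tendsto_id)
    filter_upwards [eventually_ge_atTop 1, eventually_ge_atTop (|u| + 1)] with T hT hTu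
    have hT0 : (T : ℂ) ≠ 0 := by exact_mod_cast (by linarith : T ≠ 0)
    have hz := norm_zwin_le hT u
    have hz1 : ‖zwin T u‖ ≤ 1 := hz.trans ((div_le_one (by linarith)).2 (by linarith))
    have e : (T : ℂ) * (1 - Complex.exp (zwin T u)) - Complex.I / 2 * (u : ℂ) =
        -((1 / (8 * T) : ℝ) : ℂ) - (T : ℂ) * (Complex.exp (zwin T u) - 1 - zwin T u) := by
      rw [show (T : ℂ) * (1 - Complex.exp (zwin T u)) = -((T : ℂ) * zwin T u) -
        (T : ℂ) * (Complex.exp (zwin T u) - 1 - zwin T u) from by ring]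
      rw [show -((T : ℂ) * zwin T u) = Complex.I / 2 * (u : ℂ) - ((1 / (8 * T) : ℝ) : ℂ) from by
        rw [zwin]; push_cast; field_simp; ring]
      ring
    rw [Real.norm_eq_abs, abs_of_nonneg (norm_nonneg _), e]
    refine (norm_sub_le _ _).trans ?_
    rw [norm_neg, norm_mul, Complex.norm_real, Complex.norm_real, Real.norm_eq_abs,
      Real.norm_eq_abs, abs_of_pos (by positivity : (0:ℝ) < 1 / (8 * T)),
      abs_of_pos (by linarith : 0 < T)]
    calc 1 / (8 * T) + T * ‖Complex.exp (zwin T u) - 1 - zwin T u‖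
        ≤ 1 / T + T * ((|u| + 1) / (2 * T)) ^ 2 := by
          gcongr
          · linarith
          · exact (Complex.norm_exp_sub_one_sub_id_le hz1).trans
              (pow_le_pow_left₀ (norm_nonneg _) hz 2)
      _ ≤ 1 / T + (|u| + 1) ^ 2 / T := by
          gcongr
          rw [div_pow, mul_div_assoc', div_le_div_iff₀ (by positivity) (by linarith)]
          nlinarith [sq_nonneg ((|u| + 1) * T)]
      _ = _ := by ring
  have := ((hk.const_mul (gam 1 u)).mul hg)
  rw [show gam 1 u * (Complex.I / 2 * (u : ℂ)) * gam 1 u = lwin u from by rw [lwin]; ring] at this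
  refine this.congr' ?_
  filter_upwards [eventually_gt_atTop 0] with T hT
  rw [dwin, kwin_scale hT]; ring

theorem continuous_dwin (T τ : ℝ) : Continuous (dwin T τ) :=
  (((continuous_gam T).comp Complex.continuous_ofReal).sub
    ((continuous_gam T).comp (by fun_prop))).mul ((continuous_gam T).comp (by fun_prop))

theorem continuous_lwin : Continuous lwin := by
  unfold lwin gam; fun_prop

theorem norm_lwin_shift_le (r s : ℝ) (hr : |r| ≤ 1) : ‖lwin (s - r)‖ ≤ dom s := by
  rw [lwin, norm_mul, norm_mul, norm_mul, norm_gam, norm_div, Complex.norm_I, Complex.norm_ofNat,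
    Complex.norm_real, Real.norm_eq_abs, mul_assoc, ← Real.exp_add]
  have h1 : |s - r| ≤ Real.exp |s| := by
    have := Real.add_one_le_exp |s|
    linarith [abs_sub s r]
  calc 1 / 2 * |s - r| * Real.exp (-((s - r) / 1) ^ 2 / 2 + -((s - r) / 1) ^ 2 / 2)
      ≤ 1 * Real.exp |s| * Real.exp (-((s - r) / 1) ^ 2 / 2 + -((s - r) / 1) ^ 2 / 2) := by
        gcongr; norm_num
    _ ≤ dom s := by
        rw [one_mul, dom, ← Real.exp_add, ← Real.exp_add, Real.exp_le_exp]
        have h2 : (|s| - |r|) ^ 2 ≤ (s - r) ^ 2 := by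
          rw [← sq_abs (s - r)]
          exact sq_le_sq' (by linarith [abs_sub_abs_le_abs_sub r s, abs_sub_comm r s])
            (abs_sub_abs_le_abs_sub s r)
        nlinarith [sq_nonneg (|s| - 2), abs_nonneg r, abs_nonneg s, sq_abs s]

theorem integrable_lwin : Integrable lwin :=
  integrable_dom.mono' continuous_lwin.aestronglyMeasurable
    (Eventually.of_forall fun s => by simpa using norm_lwin_shift_le 0 s (by simp))

theorem integral_lwin : ∫ u, lwin u = 0 := by
  have h := integral_neg_eq_self lwin volume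
  have e : (fun u => lwin (-u)) = fun u => -lwin u := by
    ext u; simp [lwin, gam]
  rw [e, integral_neg] at h
  linear_combination (-(1:ℂ) / 2) * h

variable {H : Type u} [NormedAddCommGroup H] [InnerProductSpace ℂ H] [CompleteSpace H]
  {M : VonNeumannAlgebra H} {Ω : H} (D : ModData M Ω)

theorem integrable_dwin {T : ℝ} (hT : 1 ≤ T) (τ : ℝ) : Integrable (dwin T τ) := by
  have hT0 : T ≠ 0 := by linarith
  have h : Integrable fun u => (T : ℂ) * dwin T τ (T * u) :=
    integrable_dom.mono' ((continuous_const.mul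
      ((continuous_dwin T τ).comp (continuous_const.mul continuous_id))).aestronglyMeasurable)
      (Eventually.of_forall (norm_dwin_scale_le hT τ))
  rw [integrable_const_mul_iff (by simp [hT0] : IsUnit (T : ℂ)),
    integrable_comp_mul_left_iff _ hT0] at h
  exact h

theorem integral_norm_dwin_le {T : ℝ} (hT : 1 ≤ T) (τ : ℝ) :
    ∫ s, ‖dwin T τ s‖ ≤ ∫ u, dom u := by
  have h := Measure.integral_comp_mul_left (fun s => ‖dwin T τ s‖) T
  rw [abs_inv, abs_of_pos (by linarith : 0 < T), smul_eq_mul] at h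
  calc ∫ s, ‖dwin T τ s‖ = ∫ u, T * ‖dwin T τ (T * u)‖ := by
        rw [integral_const_mul, h]; field_simp
    _ ≤ _ := by
        refine integral_mono_of_nonneg (Eventually.of_forall fun u => by positivity) integrable_dom
          (Eventually.of_forall fun u => ?_)
        have := norm_dwin_scale_le hT τ u
        rwa [norm_mul, Complex.norm_real, Real.norm_eq_abs, abs_of_pos (by linarith : 0 < T)] at this

theorem tendsto_vint_dwin (τ : ℝ) (ξ : H) :
    Tendsto (fun T : ℝ => ‖vint D (dwin T τ) ξ‖) atTop (𝓝 0) := by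
  have h0 := tendsto_scl_zero D continuous_lwin integrable_lwin integral_lwin integrable_dom
    norm_lwin_shift_le ξ
  have h1 : Tendsto (fun T : ℝ => ∫ u : ℝ, ‖(T : ℂ) * dwin T τ (T * u) - lwin u‖) atTop
      (𝓝 (∫ _u : ℝ, (0 : ℝ))) := by
    apply tendsto_integral_filter_of_dominated_convergence (fun u => dom u + ‖lwin u‖)
    · exact Eventually.of_forall fun T => ((continuous_const.mul ((continuous_dwin T τ).comp
        (continuous_const.mul continuous_id))).sub continuous_lwin).norm.aestronglyMeasurable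
    · filter_upwards [eventually_ge_atTop 1] with T hT
      filter_upwards with u
      rw [Real.norm_eq_abs, abs_of_nonneg (norm_nonneg _)]
      exact (norm_sub_le _ _).trans (add_le_add (norm_dwin_scale_le hT τ u) le_rfl)
    · exact integrable_dom.add integrable_lwin.norm
    · filter_upwards with u
      simpa using ((tendsto_dwin_scale τ u).sub_const (lwin u)).norm
  rw [integral_zero] at h1
  refine squeeze_zero_norm' (a := fun T : ℝ => (∫ u : ℝ, ‖(T : ℂ) * dwin T τ (T * u) - lwin u‖) * ‖ξ‖ +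
    ‖vint D (scl T lwin) ξ‖) ?_ (by simpa using (h1.mul_const ‖ξ‖).add h0.norm)
  filter_upwards [eventually_ge_atTop 1] with T hT
  have hT0 : 0 < T := by linarith
  rw [Real.norm_eq_abs, abs_of_nonneg (norm_nonneg _)]
  have e : vint D (dwin T τ) ξ =
      vint D (fun s => dwin T τ s - scl T lwin s) ξ + vint D (scl T lwin) ξ := by
    rw [vint_sub_left D (integrable_dwin hT τ) (integrable_scl hT0 integrable_lwin),
      sub_add_cancel]
  rw [e]
  refine (norm_add_le _ _).trans (add_le_add ((norm_vint_le D _ _).trans_eq ?_) le_rfl)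
  congr 1
  have h := Measure.integral_comp_mul_left (fun s => ‖dwin T τ s - scl T lwin s‖) T
  rw [abs_inv, abs_of_pos hT0, smul_eq_mul] at h
  calc ∫ s, ‖dwin T τ s - scl T lwin s‖
      = T * ∫ u, ‖dwin T τ (T * u) - scl T lwin (T * u)‖ := by rw [h]; field_simp
    _ = _ := by
        rw [← integral_const_mul]; congr 1; ext u
        rw [scl, mul_div_cancel_left₀ _ hT0.ne', Complex.ofReal_inv]
        rw [show (T : ℂ) * dwin T τ (T * u : ℝ) - lwin u =
          (T : ℂ) * (dwin T τ (T * u : ℝ) - (T : ℂ)⁻¹ * lwin u) from by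
            rw [mul_sub, mul_inv_cancel_left₀ (by exact_mod_cast hT0.ne')]]
        rw [norm_mul, Complex.norm_real, Real.norm_eq_abs, abs_of_pos hT0]

end Vale.Agent.P132.Fixed
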