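import Mathlib

/-!
# Riemann sums on uniform grids
-/

namespace Vale.Agent.P132.Fixed

open scoped Topology
open Filter MeasureTheory

variable {E : Type*} [NormedAddCommGroup E] [NormedSpace ℝ E] [CompleteSpace E] {P : ℝ}

/-- The step of the grid. -/
noncomputable def stp (P : ℝ) (N : ℕ) : ℝ := P / N

/-- The left node of the cell of `s`. -/
noncomputable def fl (P : ℝ) (N : ℕ) (s : ℝ) : ℝ := (⌊s / stp P N⌋ : ℤ) * stp P N

/-- The nodes. -/
noncomputable def node (P : ℝ) (N : ℕ) (k : ℕ) : ℝ := k * stp P N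

theorem stp_pos (hP : 0 < P) {N : ℕ} (hN : 0 < N) : 0 < stp P N := by
  unfold stp; positivity

theorem node_mem (hP : 0 < P) {N k : ℕ} (hk : k ≤ N) : node P N k ∈ Set.Icc 0 P := by
  rcases Nat.eq_zero_or_pos N with rfl | hN
  · simp [node, stp, hP.le]
  refine ⟨mul_nonneg k.cast_nonneg (stp_pos hP hN).le, ?_⟩
  have : (k : ℝ) ≤ N := by exact_mod_cast hk
  calc node P N k ≤ N * stp P N := mul_le_mul_of_nonneg_right this (stp_pos hP hN).le
    _ = P := by unfold stp; field_simp

theorem measurable_fl (P : ℝ) (N : ℕ) : Measurable (fl P N) := by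
  unfold fl
  exact ((measurable_from_top (f := fun n : ℤ => (n : ℝ))).comp
    (Int.measurable_floor.comp (measurable_id.div_const _))).mul_const _

theorem fl_bounds (hP : 0 < P) {N : ℕ} (hN : 0 < N) (s : ℝ) :
    fl P N s ≤ s ∧ s < fl P N s + stp P N := by
  have h := stp_pos hP hN
  constructor
  · have := Int.floor_le (s / stp P N)
    rwa [le_div_iff₀ h] at this
  · have := Int.lt_floor_add_one (s / stp P N)
    rw [div_lt_iff₀ h, add_mul, one_mul] at this
    exact this

theorem fl_mem (hP : 0 < P) {N : ℕ} (hN : 0 < N) {s : ℝ} (hs : s ∈ Set.Icc 0 P) :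
    fl P N s ∈ Set.Icc 0 P :=
  ⟨mul_nonneg (by exact_mod_cast Int.floor_nonneg.2 (div_nonneg hs.1 (stp_pos hP hN).le))
    (stp_pos hP hN).le, (fl_bounds hP hN s).1.trans hs.2⟩

theorem tendsto_fl (hP : 0 < P) (s : ℝ) : Tendsto (fun N => fl P N s) atTop (𝓝 s) := by
  have h0 : Tendsto (fun N : ℕ => stp P N) atTop (𝓝 0) :=
    tendsto_const_nhds.div_atTop tendsto_natCast_atTop_atTop
  have h1 : Tendsto (fun N : ℕ => s - stp P N) atTop (𝓝 s) := by
    simpa using tendsto_const_nhds.sub h0
  refine tendsto_of_tendsto_of_tendsto_of_le_of_le' h1 tendsto_const_nhds ?_ ?_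
  · filter_upwards [eventually_gt_atTop 0] with N hN
    linarith [(fl_bounds hP hN s).2]
  · filter_upwards [eventually_gt_atTop 0] with N hN
    exact (fl_bounds hP hN s).1

theorem fl_eq_node (hP : 0 < P) {N : ℕ} (hN : 0 < N) {k : ℕ} {s : ℝ}
    (hs : s ∈ Set.Ico (node P N k) (node P N (k + 1))) : fl P N s = node P N k := by
  have h := stp_pos hP hN
  have : ⌊s / stp P N⌋ = (k : ℤ) := by
    rw [Int.floor_eq_iff]
    constructor
    · rw [le_div_iff₀ h]; simpa [node] using hs.1
    · rw [div_lt_iff₀ h]; simpa [node] using hs.2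
  simp [fl, node, this]

/-- A Riemann sum is the integral of a step function. -/
theorem sum_eq_integral (hP : 0 < P) {N : ℕ} (hN : 0 < N) (f : ℝ → E) :
    ∑ k : Fin N, stp P N • f (node P N k) = ∫ s in (0 : ℝ)..P, f (fl P N s) := by
  have hpiece : ∀ k : ℕ, Set.EqOn (fun s => f (fl P N s)) (fun _ => f (node P N k))
      (Set.Ico (node P N k) (node P N (k + 1))) := fun k s hs => by
    simp only [fl_eq_node hP hN hs]
  have hle : ∀ k : ℕ, node P N k ≤ node P N (k + 1) := fun k =>
    mul_le_mul_of_nonneg_right (by simp) (stp_pos hP hN).le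
  have hae : ∀ k : ℕ, ∀ᵐ s : ℝ, s ∈ Set.uIoc (node P N k) (node P N (k + 1)) →
      f (node P N k) = f (fl P N s) := fun k => by
    filter_upwards [compl_mem_ae_iff.2 (measure_singleton (μ := volume) (node P N (k + 1)))]
      with s hs hmem
    rw [Set.uIoc_of_le (hle k)] at hmem
    exact (hpiece k ⟨hmem.1.le, lt_of_le_of_ne hmem.2 hs⟩).symm
  have e : ∀ k : ℕ, ∫ s in node P N k..node P N (k + 1), f (fl P N s) =
      stp P N • f (node P N k) := fun k => by
    rw [← intervalIntegral.integral_congr_ae (hae k), intervalIntegral.integral_const]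
    congr 1
    simp only [node]; push_cast; ring
  have hi : ∀ k < N, IntervalIntegrable (fun s => f (fl P N s)) volume (node P N k)
      (node P N (k + 1)) := fun k _ =>
    (intervalIntegrable_const (c := f (node P N k))).congr_ae ((ae_restrict_iff'
      measurableSet_uIoc).2 (hae k))
  have h := intervalIntegral.sum_integral_adjacent_intervals hi
  simp only [e] at h
  have e0 : node P N 0 = 0 := by simp [node]
  have eN : node P N N = P := by unfold node stp; field_simp
  rw [e0, eN] at h
  rw [Fin.sum_univ_eq_sum_range (fun k => stp P N • f (node P N k))]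
  exact h

/-- Riemann sums of a converging family. -/
theorem grid_lim (hP : 0 < P) (F : ℕ → ℝ → E) (F₀ : ℝ → E) (hc : ∀ N, Continuous (F N)) (C : ℝ)
    (hb : ∀ᶠ N in atTop, ∀ s ∈ Set.Icc 0 P, ‖F N s‖ ≤ C)
    (hlim : ∀ s ∈ Set.Icc 0 P, Tendsto (fun N => F N (fl P N s)) atTop (𝓝 (F₀ s))) :
    Tendsto (fun N : ℕ => ∑ k : Fin N, stp P N • F N (node P N k)) atTop
      (𝓝 (∫ s in (0 : ℝ)..P, F₀ s)) := by
  have h : Tendsto (fun N : ℕ => ∫ s in (0 : ℝ)..P, F N (fl P N s)) atTop
      (𝓝 (∫ s in (0 : ℝ)..P, F₀ s)) := by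
    apply intervalIntegral.tendsto_integral_filter_of_dominated_convergence (fun _ => C)
    · exact Eventually.of_forall fun N =>
        ((hc N).stronglyMeasurable.comp_measurable (measurable_fl P N)).aestronglyMeasurable
    · filter_upwards [hb, eventually_gt_atTop 0] with N hN hN0
      filter_upwards with s hs
      rw [Set.uIoc_of_le hP.le] at hs
      exact hN _ (fl_mem hP hN0 ⟨hs.1.le, hs.2⟩)
    · exact intervalIntegrable_const
    · filter_upwards with s hs
      rw [Set.uIoc_of_le hP.le] at hs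
      exact hlim s ⟨hs.1.le, hs.2⟩
  refine h.congr' ?_
  filter_upwards [eventually_gt_atTop 0] with N hN
  exact (sum_eq_integral hP hN (F N)).symm

/-- Riemann sums of a continuous function. -/
theorem grid1 (hP : 0 < P) {f : ℝ → E} (hf : Continuous f) :
    Tendsto (fun N : ℕ => ∑ k : Fin N, stp P N • f (node P N k)) atTop
      (𝓝 (∫ s in (0 : ℝ)..P, f s)) := by
  obtain ⟨C, hC⟩ := isCompact_Icc.exists_bound_of_continuousOn (hf.continuousOn (s := Set.Icc 0 P))
  exact grid_lim hP (fun _ => f) f (fun _ => hf) C (Eventually.of_forall fun _ => hC)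
    fun s _ => (hf.tendsto s).comp (tendsto_fl hP s)

/-- Riemann sums of a continuous function of two variables. -/
theorem grid2 (hP : 0 < P) {F : ℝ → ℝ → E} (hF : Continuous F.uncurry) :
    Tendsto (fun N : ℕ => ∑ j : Fin N, stp P N •
        ∑ k : Fin N, stp P N • F (node P N j) (node P N k)) atTop
      (𝓝 (∫ p in (0 : ℝ)..P, ∫ q in (0 : ℝ)..P, F p q)) := by
  obtain ⟨C, hC⟩ := (isCompact_Icc.prod isCompact_Icc).exists_bound_of_continuousOn
    (hF.continuousOn (s := Set.Icc 0 P ×ˢ Set.Icc 0 P))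
  refine grid_lim hP (fun N p => ∑ k : Fin N, stp P N • F p (node P N k))
    (fun p => ∫ q in (0 : ℝ)..P, F p q) (fun N => ?_) (P * C) ?_ fun p hp => ?_
  · exact continuous_finsetSum _ fun k _ =>
      (hF.comp (continuous_id.prodMk continuous_const)).const_smul _
  · filter_upwards [eventually_gt_atTop 0] with N hN p hp
    refine (norm_sum_le _ _).trans ?_
    refine (Finset.sum_le_sum fun (k : Fin N) _ => ?_).trans_eq (b := ∑ _k : Fin N, stp P N * C) ?_
    · rw [norm_smul, Real.norm_eq_abs, abs_of_pos (stp_pos hP hN)]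
      exact mul_le_mul_of_nonneg_left (hC (p, _) ⟨hp, node_mem hP k.2.le⟩) (stp_pos hP hN).le
    · simp [stp]; field_simp
  · have h := grid_lim hP (fun N q => F (fl P N p) q) (fun q => F p q)
      (fun N => hF.comp (continuous_const.prodMk continuous_id)) C ?_ fun q _ => ?_
    · exact h
    · filter_upwards [eventually_gt_atTop 0] with N hN q hq
      exact hC (_, q) ⟨fl_mem hP hN hp, hq⟩
    · exact (hF.tendsto (p, q)).comp ((tendsto_fl hP p).prodMk_nhds (tendsto_fl hP q))

end Vale.Agent.P132.Fixed
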