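import Vale.Agent.P132.Fixed.Gauss
import Vale.Agent.P132.Fixed.Grid

/-!
# The flow and the levels
-/

namespace Vale.Agent.P132.Fixed

open scoped InnerProductSpace Topology ComplexOrder ComplexConjugate
open Filter MeasureTheory

universe u

variable {H : Type u} [NormedAddCommGroup H] [InnerProductSpace ℂ H] [CompleteSpace H]
  {M : VonNeumannAlgebra H} {Ω : H}

/-- The normalising factor of the levels. -/
noncomputable def lam (P : ℝ) (N : ℕ) : ℝ := (∑ k : Fin N, Real.exp (-node P N k))⁻¹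

/-- The weights. -/
noncomputable def cw (P : ℝ) (N : ℕ) (j : Fin N) : ℝ := lam P N * Real.exp (-node P N j)

theorem lam_pos (P : ℝ) {N : ℕ} (hN : 0 < N) : 0 < lam P N := by
  have : Nonempty (Fin N) := ⟨⟨0, hN⟩⟩
  exact inv_pos.2 (Finset.sum_pos (fun _ _ => Real.exp_pos _) Finset.univ_nonempty)

theorem lam_le_one (P : ℝ) {N : ℕ} (hN : 0 < N) : lam P N ≤ 1 := by
  apply inv_le_one_of_one_le₀
  refine le_trans (le_of_eq ?_) (Finset.single_le_sum (fun (k : Fin N) _ => (Real.exp_pos _).le)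
    (Finset.mem_univ ⟨0, hN⟩))
  simp [node]

theorem cw_pos (P : ℝ) {N : ℕ} (hN : 0 < N) (j : Fin N) : 0 < cw P N j :=
  mul_pos (lam_pos P hN) (Real.exp_pos _)

theorem sum_cw (P : ℝ) {N : ℕ} (hN : 0 < N) : ∑ j, cw P N j = 1 := by
  simp only [cw, ← Finset.mul_sum]
  exact inv_mul_cancel₀ (inv_pos.1 (lam_pos P hN)).ne'

/-- The ratio of the normalising factor and the step. -/
noncomputable def rat (P : ℝ) (N : ℕ) : ℝ := lam P N / stp P N

theorem rat_bounds {P : ℝ} (hP : 0 < P) {N : ℕ} (hN : 0 < N) :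
    1 / P ≤ rat P N ∧ rat P N ≤ Real.exp P / P := by
  set S := ∑ k : Fin N, Real.exp (-node P N k) with hS
  have h1 : S ≤ N := by
    refine (Finset.sum_le_sum fun (k : Fin N) _ => ?_).trans_eq (b := ∑ _k : Fin N, (1 : ℝ))
      (by simp)
    rw [Real.exp_le_one_iff]; linarith [(node_mem hP k.2.le).1]
  have h2 : N * Real.exp (-P) ≤ S := by
    refine le_trans (le_of_eq ?_) (Finset.sum_le_sum fun (k : Fin N) _ => Real.exp_le_exp.2
      (neg_le_neg (node_mem hP k.2.le).2))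
    simp
  have hN' : (0 : ℝ) < N := by exact_mod_cast hN
  have hS0 : 0 < S := lt_of_lt_of_le (by positivity) h2
  have e : rat P N = N / (P * S) := by
    rw [rat, lam, ← hS, stp]; field_simp
  rw [e]
  constructor
  · rw [div_le_div_iff₀ hP (by positivity)]; nlinarith
  · rw [div_le_div_iff₀ (by positivity) hP]
    have : Real.exp P * Real.exp (-P) = 1 := by rw [← Real.exp_add]; simp
    have : (N : ℝ) ≤ Real.exp P * S := by
      calc (N : ℝ) = Real.exp P * (N * Real.exp (-P)) := by rw [mul_left_comm, this, mul_one]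
        _ ≤ _ := mul_le_mul_of_nonneg_left h2 (Real.exp_pos _).le
    nlinarith

/-- The closure properties of the bicentralizer that are used. -/
structure Closed (M : VonNeumannAlgebra H) (Ω : H) (D : ModData M Ω) : Prop where
  star : ∀ a, InBicentralizer M (vecState Ω) a → InBicentralizer M (vecState Ω) (star a)
  add : ∀ a b, InBicentralizer M (vecState Ω) a → InBicentralizer M (vecState Ω) b →
    InBicentralizer M (vecState Ω) (a + b)
  mul : ∀ a b, InBicentralizer M (vecState Ω) a → InBicentralizer M (vecState Ω) b →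
    InBicentralizer M (vecState Ω) (a * b)
  smul : ∀ (z : ℂ) a, InBicentralizer M (vecState Ω) a → InBicentralizer M (vecState Ω) (z • a)
  sig : ∀ t a, InBicentralizer M (vecState Ω) a → InBicentralizer M (vecState Ω) (sig D t a)

variable {D : ModData M Ω}

theorem closed_of_bic (h : Iface.StmtBic.{u}) (hΩ : IsCS M Ω) : Closed M Ω D := by
  obtain ⟨_, _, h3, h4, h5, h6⟩ := h H M Ω D hΩ
  exact ⟨h3, fun a b ha hb => (h4 a ha b hb).1, fun a b ha hb => (h4 a ha b hb).2, h5, h6⟩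

variable (F : FlowData M Ω D)

/-- The orbit of `a Ω`, frozen for negative times. -/
noncomputable def orb (a : H →L[ℂ] H) (p : ℝ) : H := F.beta (Real.exp (-max p 0)) a Ω

theorem exp_max_mem (p : ℝ) : Real.exp (-max p 0) ∈ Set.Ioc (0 : ℝ) 1 :=
  ⟨Real.exp_pos _, Real.exp_le_one_iff.2 (by simp)⟩

theorem continuous_orb {a : H →L[ℂ] H} (ha : InBicentralizer M (vecState Ω) a) :
    Continuous (orb F a) :=
  (F.cont a ha).comp_continuous (by fun_prop) exp_max_mem

theorem orb_zero {a : H →L[ℂ] H} (ha : InBicentralizer M (vecState Ω) a) :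
    orb F a 0 = a Ω := by
  simp [orb, F.one a ha]

theorem inner_beta_U (hcl : Closed M Ω D) {c : ℝ} (hc : 0 < c) (hc1 : c ≤ 1) {a b : H →L[ℂ] H}
    (ha : InBicentralizer M (vecState Ω) a) (hb : InBicentralizer M (vecState Ω) b) (t : ℝ) :
    ⟪F.beta c a Ω, D.U t (F.beta c b Ω)⟫_ℂ = ⟪a Ω, D.U t (b Ω)⟫_ℂ := by
  rw [← sig_omega D t (F.beta c b), sig, ← F.sigma c t b hc hc1 hb,
    F.inner_eq c a (D.U t * b * D.U (-t)) hc hc1 ha (hcl.sig t b hb)]
  exact congrArg _ (sig_omega D t b)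

theorem inner_orb_U_self (hcl : Closed M Ω D) {a : H →L[ℂ] H}
    (ha : InBicentralizer M (vecState Ω) a) (p t : ℝ) :
    ⟪orb F a p, D.U t (orb F a p)⟫_ℂ = ⟪a Ω, D.U t (a Ω)⟫_ℂ :=
  inner_beta_U F hcl (exp_max_mem p).1 (exp_max_mem p).2 ha ha t

theorem norm_orb (hcl : Closed M Ω D) {a : H →L[ℂ] H} (ha : InBicentralizer M (vecState Ω) a)
    (p : ℝ) : ‖orb F a p‖ = ‖a Ω‖ := by
  have h := inner_orb_U_self F hcl ha p 0
  simp only [D.U_zero, one_apply_eq_self] at h
  rw [norm_eq_sqrt_re_inner (𝕜 := ℂ), h, ← norm_eq_sqrt_re_inner]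

/-- Scaling by `κ` does not change pairings. -/
theorem inner_scale (hcl : Closed M Ω D) {κ : ℝ} (hκ : 0 < κ) (hκ1 : κ ≤ 1) {a : H →L[ℂ] H}
    (ha : InBicentralizer M (vecState Ω) a) {p q : ℝ} (hp : 0 ≤ p) (hq : 0 ≤ q) (t : ℝ) :
    ⟪F.beta (κ * Real.exp (-p)) a Ω, D.U t (F.beta (κ * Real.exp (-q)) a Ω)⟫_ℂ =
      ⟪orb F a p, D.U t (orb F a q)⟫_ℂ := by
  have hp' := exp_max_mem p
  have hq' := exp_max_mem q
  rw [max_eq_left hp] at hp'
  rw [max_eq_left hq] at hq'
  rw [← F.comp κ _ a hκ hκ1 hp'.1 hp'.2 ha, ← F.comp κ _ a hκ hκ1 hq'.1 hq'.2 ha,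
    inner_beta_U F hcl hκ hκ1 (F.mem _ a hp'.1 hp'.2 ha) (F.mem _ a hq'.1 hq'.2 ha)]
  simp [orb, max_eq_left hp, max_eq_left hq]

theorem norm_vint_beta (hcl : Closed M Ω D) {c : ℝ} (hc : 0 < c) (hc1 : c ≤ 1) {b : H →L[ℂ] H}
    (hb : InBicentralizer M (vecState Ω) b) {g : ℝ → ℂ} (hg : Integrable g) :
    ‖vint D g (F.beta c b Ω)‖ = ‖vint D g (b Ω)‖ := by
  have key : ∀ ξ : H, ⟪vint D g ξ, vint D g ξ⟫_ℂ =
      ∫ s : ℝ, g s * conj (∫ t : ℝ, g t * ⟪ξ, D.U (-s) (D.U t ξ)⟫_ℂ) := by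
    intro ξ
    rw [inner_vint D hg]
    refine integral_congr_ae (Eventually.of_forall fun s => ?_)
    dsimp only
    rw [← inner_conj_symm, inner_U_left, U_vint D hg, inner_vint D hg]
    congr 2
    refine integral_congr_ae (Eventually.of_forall fun t => ?_)
    simp only [U_U, add_comm]
  rw [norm_eq_sqrt_re_inner (𝕜 := ℂ), norm_eq_sqrt_re_inner (𝕜 := ℂ), key, key]
  simp only [U_U, inner_beta_U F hcl hc hc1 hb hb]

end Vale.Agent.P132.Fixed
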