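import Vale.Agent.P132.Fixed.Ineq

/-!
# Vanishing on the positive half line
-/

namespace Vale.Agent.P132.Fixed

open scoped InnerProductSpace Topology ComplexOrder ComplexConjugate
open Filter MeasureTheory

universe u

variable {H : Type u} [NormedAddCommGroup H] [InnerProductSpace ℂ H] [CompleteSpace H]
  {M : VonNeumannAlgebra H} {Ω : H} {D : ModData M Ω}

theorem bump_test {c : ℝ} (f : ContDiffBump c) : Test fun p => f p :=
  ⟨f.contDiff, f.hasCompactSupport⟩

theorem bump_support {c : ℝ} (f : ContDiffBump c) {p : ℝ} (h : f p ≠ 0) :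
    c - f.rOut < p ∧ p < c + f.rOut := by
  have : p ∈ Function.support f := h
  rw [f.support_eq, Real.ball_eq_Ioo] at this
  exact this

variable (F : FlowData M Ω D) (hd : Iface.StmtDissip.{u}) (hΩ : IsCS M Ω) (hcl : Closed M Ω D)
  {a : H →L[ℂ] H} (ha : InBicentralizer M (vecState Ω) a) (hs : star a = a) (hn : ‖a‖ ≤ 1)
include F hd hΩ hcl ha hs hn

theorem ineq_of_test {u : ℝ → ℝ} (hu : Test u) (h0 : ∀ E, 0 ≤ u E) (h1 : ∀ E, u E ≤ 1) {r : ℝ}
    (hr : 0 < r) (hsupp : ∀ E, u E ≠ 0 → r ≤ E) :
    (⟪a Ω, fsmear D (fun E => u E * Real.exp E) (a Ω)⟫_ℂ).re ≤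
      (⟪a Ω, fsmear D u (a Ω)⟫_ℂ).re := by
  obtain ⟨R₀, hR₀⟩ := hu.supp.isCompact.bddAbove
  set R := max R₀ 1 with hR
  have hR1 : 1 ≤ R := le_max_right _ _
  have huR : ∀ E, u E ≠ 0 → E ≤ R := fun E h =>
    (hR₀ (subset_tsupport u h)).trans (le_max_left _ _)
  set P := R + 3 with hPdef
  have hP : 0 < P := by linarith
  let χb : ContDiffBump (P / 2) := ⟨(R + 2) / 2, (R + 5 / 2) / 2, by linarith, by linarith⟩
  set χ : ℝ → ℝ := fun p => χb p with hχdef
  have hχsupp : ∀ p, χ p ≠ 0 → p ∈ Set.Ioo 0 P := by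
    intro p hp
    obtain ⟨h2, h3⟩ := bump_support χb hp
    simp only [χb] at h2 h3
    constructor <;> linarith
  have hχone : ∀ p, 1 / 2 ≤ p → p ≤ R + 2 → χ p = 1 := by
    intro p h2 h3
    apply χb.one_of_mem_closedBall
    rw [Real.closedBall_eq_Icc]
    simp only [χb]
    constructor <;> linarith
  have S : Setting M Ω D F a P χ :=
    ⟨hcl, ha, hs, hn, hP, χb.continuous, fun p => by
      rw [abs_of_nonneg χb.nonneg]; exact χb.le_one⟩
  have hLc : Continuous (Lfun F a u) := (Complex.continuous_ofReal.comp (Real.continuous_exp.comp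
    (continuous_const.sub continuous_id))).mul ((continuous_orb F ha).inner
      (continuous_shifted (hu.mul_smooth Real.contDiff_exp) _))
  have hRc : Continuous (Rfun D (a Ω) u) :=
    Complex.continuous_re.comp (continuous_const.inner (continuous_shifted hu _))
  have hL1 : Lfun F a u 1 = ⟪a Ω, fsmear D (fun E => u E * Real.exp E) (a Ω)⟫_ℂ := by
    have hi : Integrable (fourierT fun E => u E * Real.exp E) :=
      (hu.mul_smooth Real.contDiff_exp).integrable_fourierT
    rw [Lfun, shifted_one, fsmear_eq, fsmear_eq, inner_vint D hi, inner_vint D hi]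
    simp [inner_orb_U_self F hcl ha]
  have hR1' : Rfun D (a Ω) u 1 = (⟪a Ω, fsmear D u (a Ω)⟫_ℂ).re := by
    rw [Rfun, shifted_one]
  rw [← hL1, ← hR1']
  by_contra hlt
  push Not at hlt
  have hpos : ∀ᶠ q in 𝓝 (1 : ℝ), 0 < (Lfun F a u q).re - Rfun D (a Ω) u q :=
    (((Complex.continuous_re.comp hLc).sub hRc).tendsto 1).eventually
      (lt_mem_nhds (sub_pos.2 hlt))
  obtain ⟨ε₀, hε₀, hball⟩ := Metric.eventually_nhds_iff.1 hpos
  set ε := min ε₀ (min r (1 / 2)) with hεdef
  have hε : 0 < ε := lt_min hε₀ (lt_min hr (by norm_num))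
  let wb : ContDiffBump (1 : ℝ) := ⟨ε / 2, ε, half_pos hε, half_lt_self hε⟩
  set w : ℝ → ℝ := fun p => wb p with hwdef
  have hw : ∀ q, w q ≠ 0 → 1 - ε < q ∧ q < 1 + ε := fun q h => bump_support wb h
  have hεr : ε ≤ r := (min_le_right _ _).trans (min_le_left _ _)
  have hεh : ε ≤ 1 / 2 := (min_le_right _ _).trans (min_le_right _ _)
  have W : Weights P χ (uw u) w := by
    refine ⟨⟨hu.smooth.comp (contDiff_id.sub contDiff_const),
      hu.supp.comp_homeomorph (Homeomorph.subRight 1)⟩, bump_test wb, fun p => h0 _,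
      fun p => wb.nonneg, fun p => h1 _, fun p => wb.le_one, ?_, ?_, ?_⟩
    · intro p hp
      have h2 := hsupp _ hp
      have h3 := huR _ hp
      exact ⟨hχone p (by linarith) (by linarith), by linarith, by linarith⟩
    · intro p hp
      obtain ⟨h2, h3⟩ := hw p hp
      exact ⟨hχone p (by linarith) (by linarith), by linarith, by linarith⟩
    · intro p
      by_contra h
      have h2 := hsupp _ (left_ne_zero_of_mul h)
      have h3 := (hw p (right_ne_zero_of_mul h)).2
      linarith
  have hle := integral_ineq S W hu hd hΩ (bump_test χb) hχsupp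
  have hgt : 0 < ∫ q in (0 : ℝ)..P, w q * ((Lfun F a u q).re - Rfun D (a Ω) u q) := by
    refine intervalIntegral.integral_pos hP ?_ (fun q _ => ?_) ⟨1, ⟨by norm_num, by linarith⟩, ?_⟩
    · exact (wb.continuous.mul ((Complex.continuous_re.comp hLc).sub hRc)).continuousOn
    · rcases eq_or_ne (w q) 0 with h | h
      · simp [h]
      · refine mul_nonneg wb.nonneg (le_of_lt (hball ?_))
        obtain ⟨h2, h3⟩ := hw q h
        rw [Real.dist_eq, abs_sub_lt_iff]
        have := min_le_left ε₀ (min r (1 / 2))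
        constructor <;> linarith
    · have hw1 : w 1 = 1 := wb.one_of_mem_closedBall (Metric.mem_closedBall_self (half_pos hε).le)
      rw [hw1, one_mul]
      exact sub_pos.2 hlt
  linarith

theorem pos_zero_nonneg {v : ℝ → ℝ} (hv : Test v) (h0 : ∀ E, 0 ≤ v E) {r : ℝ} (hr : 0 < r)
    (hsupp : ∀ E, v E ≠ 0 → r ≤ E) : fsmear D v (a Ω) = 0 := by
  -- `u = v / (exp - 1)`
  have hsm : ContDiff ℝ 2 fun E => v E / (Real.exp E - 1) := by
    rw [contDiff_iff_contDiffAt]
    intro E
    rcases lt_or_ge E r with hE | hE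
    · have : (fun E => v E / (Real.exp E - 1)) =ᶠ[𝓝 E] fun _ => 0 := by
        filter_upwards [Iio_mem_nhds hE] with x hx
        have : v x = 0 := by
          by_contra h
          exact absurd (hsupp x h) (not_le.2 hx)
        simp [this]
      exact contDiffAt_const.congr_of_eventuallyEq this
    · exact hv.smooth.contDiffAt.div
        (Real.contDiff_exp.contDiffAt.sub contDiffAt_const)
        (sub_ne_zero.2 (Real.one_lt_exp_iff.2 (lt_of_lt_of_le hr hE)).ne')
  have hu : Test fun E => v E / (Real.exp E - 1) := by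
    refine ⟨hsm, ?_⟩
    simp only [div_eq_mul_inv]
    exact hv.supp.mul_right
  obtain ⟨C, hC⟩ := hu.continuous.bounded_above_of_compact_support hu.supp
  set s := (max C 1)⁻¹ with hs'
  have hs0 : 0 < s := inv_pos.2 (lt_max_of_lt_right one_pos)
  set u := fun E => s * (v E / (Real.exp E - 1)) with hudef
  have hue : Test u := ⟨contDiff_const.mul hsm, hu.supp.mul_left⟩
  have hu0 : ∀ E, 0 ≤ u E := by
    intro E
    refine mul_nonneg hs0.le ?_
    rcases eq_or_ne (v E) 0 with h | h
    · simp [h]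
    · exact div_nonneg (h0 E) (sub_nonneg.2 (Real.one_le_exp (hr.le.trans (hsupp E h))))
  have hu1 : ∀ E, u E ≤ 1 := by
    intro E
    calc u E ≤ s * max C 1 := mul_le_mul_of_nonneg_left
          ((Real.le_norm_self _).trans ((hC E).trans (le_max_left _ _))) hs0.le
      _ = 1 := inv_mul_cancel₀ (lt_max_of_lt_right one_pos).ne'
  have hus : ∀ E, u E ≠ 0 → r ≤ E := fun E h => hsupp E fun hv0 => h (by simp [hudef, hv0])
  have key := ineq_of_test F hd hΩ hcl ha hs hn hue hu0 hu1 hr hus
  have hsv : Test fun E => s * v E := ⟨contDiff_const.mul hv.smooth, hv.supp.mul_left⟩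
  have e : ∀ t, fourierT (fun E => u E * Real.exp E) t =
      fourierT (fun E => s * v E) t + fourierT u t := by
    intro t
    rw [← fourierT_add hsv hue]
    congr 1; ext E
    simp only [hudef]
    rcases eq_or_ne (v E) 0 with h | h
    · simp [h]
    · have : Real.exp E - 1 ≠ 0 :=
        sub_ne_zero.2 (Real.one_lt_exp_iff.2 (lt_of_lt_of_le hr (hsupp E h))).ne'
      field_simp
      ring
  have e2 : fsmear D (fun E => u E * Real.exp E) (a Ω) =
      (s : ℂ) • fsmear D v (a Ω) + fsmear D u (a Ω) := by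
    rw [fsmear_eq, fsmear_eq, fsmear_eq, funext e,
      vint_add_left D hsv.integrable_fourierT hue.integrable_fourierT,
      funext (fourierT_const_mul v s), vint_const_mul]
  rw [e2, inner_add_right, inner_smul_right, Complex.add_re, Complex.re_ofReal_mul] at key
  refine fsmear_eq_zero D hv h0 (a Ω) ?_
  have := fsmear_pos D hv h0 (a Ω)
  nlinarith

/-- The smearings supported in the positive half line kill the bicentralizer. -/
theorem pos_zero {v : ℝ → ℝ} (hv : Test v) {r : ℝ} (hr : 0 < r)
    (hsupp : ∀ E, v E ≠ 0 → r ≤ E) : fsmear D v (a Ω) = 0 := by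
  obtain ⟨R₀, hR₀⟩ := hv.supp.isCompact.bddAbove
  obtain ⟨C, hC⟩ := hv.continuous.bounded_above_of_compact_support hv.supp
  set R := max R₀ r with hR
  have hrR : r ≤ R := le_max_right _ _
  let b : ContDiffBump ((r + R) / 2) :=
    ⟨(R - r) / 2 + r / 4, (R - r) / 2 + r / 2, by linarith, by linarith⟩
  have hb : ∀ E, b E ≠ 0 → r / 2 ≤ E := by
    intro E hE
    have := (bump_support b hE).1
    simp only [b] at this
    linarith
  have hb1 : ∀ E, v E ≠ 0 → b E = 1 := by
    intro E hE
    apply b.one_of_mem_closedBall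
    rw [Real.closedBall_eq_Icc]
    have h2 := hsupp E hE
    have h3 : E ≤ R := (hR₀ (subset_tsupport v hE)).trans (le_max_left _ _)
    simp only [b]
    constructor <;> linarith
  set K := max C 0 with hK
  have hbt : Test fun E => K * b E := ⟨contDiff_const.mul b.contDiff, b.hasCompactSupport.mul_left⟩
  have hsum : Test fun E => v E + K * b E :=
    ⟨hv.smooth.add hbt.smooth, hv.supp.add hbt.supp⟩
  have z1 : fsmear D (fun E => v E + K * b E) (a Ω) = 0 := by
    refine pos_zero_nonneg F hd hΩ hcl ha hs hn hsum (fun E => ?_) (half_pos hr) (fun E hE => ?_)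
    · rcases eq_or_ne (v E) 0 with h | h
      · rw [h, zero_add]; exact mul_nonneg (le_max_right _ _) b.nonneg
      · rw [hb1 E h, mul_one]
        have := neg_abs_le (v E)
        have h2 : |v E| ≤ K := (hC E).trans (le_max_left _ _)
        linarith
    · rcases eq_or_ne (v E) 0 with h | h
      · rw [h, zero_add] at hE
        exact hb E (right_ne_zero_of_mul hE)
      · linarith [hsupp E h]
  have z2 : fsmear D (fun E => K * b E) (a Ω) = 0 :=
    pos_zero_nonneg F hd hΩ hcl ha hs hn hbt (fun E => mul_nonneg (le_max_right _ _) b.nonneg)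
      (half_pos hr) fun E hE => hb E (right_ne_zero_of_mul hE)
  rw [fsmear_eq, funext (fourierT_add hv hbt),
    vint_add_left D hv.integrable_fourierT hbt.integrable_fourierT] at z1
  rw [fsmear_eq] at z2 ⊢
  rwa [z2, add_zero] at z1

end Vale.Agent.P132.Fixed
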