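import Vale.Agent.P132.Fixed.Gauss

/-!
# Fourier transforms of test functions
-/

namespace Vale.Agent.P132.Fixed

open scoped InnerProductSpace Topology ComplexOrder ComplexConjugate FourierTransform
open Filter MeasureTheory

universe u

/-- A `C^2` test function with compact support. -/
structure Test (v : ℝ → ℝ) : Prop where
  smooth : ContDiff ℝ 2 v
  supp : HasCompactSupport v

theorem fourierT_apply (v : ℝ → ℝ) (t : ℝ) : fourierT v t = ∫ E : ℝ, (v E : ℂ) * ph E t := rfl

theorem fourierT_eq (v : ℝ → ℝ) (t : ℝ) :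
    fourierT v t = 𝓕 (fun E => (v E : ℂ)) (t / (2 * Real.pi)) := by
  rw [Real.fourier_real_eq_integral_exp_smul, fourierT]
  congr 1; ext E
  rw [smul_eq_mul, mul_comm]
  congr 2
  push_cast
  field_simp

theorem fourierT_zero (v : ℝ → ℝ) : fourierT v 0 = ((∫ E : ℝ, v E : ℝ) : ℂ) := by
  simp [fourierT, integral_complex_ofReal]

theorem norm_fourierT_le (v : ℝ → ℝ) (t : ℝ) : ‖fourierT v t‖ ≤ ∫ E : ℝ, |v E| := by
  rw [fourierT_apply]
  refine (norm_integral_le_integral_norm _).trans_eq ?_
  simp [norm_ph]

namespace Test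

variable {v w : ℝ → ℝ}

theorem integrable (hv : Test v) : Integrable v :=
  hv.smooth.continuous.integrable_of_hasCompactSupport hv.supp

theorem continuous (hv : Test v) : Continuous v := hv.smooth.continuous

theorem mul_smooth (hv : Test v) (hw : ContDiff ℝ 2 w) : Test fun E => v E * w E :=
  ⟨hv.smooth.mul hw, hv.supp.mul_right⟩

theorem continuous_fourierT (hv : Test v) : Continuous (fourierT v) := by
  refine continuous_of_dominated (F := fun t E => (v E : ℂ) * ph E t) ?_ ?_ hv.integrable.norm ?_
  · intro t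
    exact ((Complex.continuous_ofReal.comp hv.continuous).mul
      (continuous_ph.comp (continuous_id.prodMk continuous_const))).aestronglyMeasurable
  · intro t; filter_upwards with E; simp [norm_ph]
  · filter_upwards with E
    exact continuous_const.mul (continuous_ph.comp (continuous_const.prodMk continuous_id))

theorem decay (hv : Test v) : ∃ C : ℝ, ∀ t, ‖fourierT v t‖ ≤ C * (1 + t ^ 2)⁻¹ := by
  set f : ℝ → ℂ := fun E => (v E : ℂ) with hf
  have hs : ContDiff ℝ 2 f := Complex.ofRealCLM.contDiff.comp hv.smooth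
  have hc : HasCompactSupport f := hv.supp.comp_left Complex.ofReal_zero
  have hs1 : ContDiff ℝ 1 (deriv f) := by
    have h2 : ((1 : WithTop ℕ∞) + 1) = 2 := by norm_num
    exact ((contDiff_succ_iff_deriv (n := 1)).1 (h2 ▸ hs)).2.2
  have i0 := hs.continuous.integrable_of_hasCompactSupport hc (μ := volume)
  have i1 := hs1.continuous.integrable_of_hasCompactSupport hc.deriv (μ := volume)
  have i2 := (hs1.continuous_deriv le_rfl).integrable_of_hasCompactSupport hc.deriv.deriv
    (μ := volume)
  have d1 := Real.fourier_deriv i0 (hs.differentiable (by norm_num)) i1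
  have d2 := Real.fourier_deriv i1 (hs1.differentiable (by norm_num)) i2
  refine ⟨(∫ E, |v E|) + ∫ E, ‖deriv (deriv f) E‖, fun t => ?_⟩
  set x := t / (2 * Real.pi) with hx
  have hb : ‖𝓕 (deriv (deriv f)) x‖ ≤ ∫ E, ‖deriv (deriv f) E‖ := by
    rw [Real.fourier_real_eq_integral_exp_smul]
    refine (norm_integral_le_integral_norm _).trans_eq ?_
    simp only [norm_smul, Complex.norm_exp_ofReal_mul_I, one_mul]
  have e : ‖2 * (Real.pi : ℂ) * Complex.I * (x : ℂ)‖ = |t| := by
    rw [norm_mul, norm_mul, norm_mul, Complex.norm_I, Complex.norm_real, Complex.norm_real,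
      Complex.norm_ofNat, Real.norm_eq_abs, Real.norm_eq_abs, hx, abs_div,
      abs_of_pos Real.pi_pos, abs_of_pos (by positivity : (0 : ℝ) < 2 * Real.pi)]
    field_simp
  rw [congrFun d2 x, congrFun d1 x, norm_smul, norm_smul, e, ← mul_assoc,
    ← sq, sq_abs, hx, ← fourierT_eq] at hb
  rw [← div_eq_mul_inv, le_div_iff₀ (by positivity)]
  nlinarith [norm_fourierT_le v t]

theorem integrable_fourierT (hv : Test v) : Integrable (fourierT v) := by
  obtain ⟨C, hC⟩ := hv.decay
  exact (integrable_inv_one_add_sq.const_mul C).mono' hv.continuous_fourierT.aestronglyMeasurable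
    (Eventually.of_forall hC)

theorem integral_fourierT (hv : Test v) :
    ∫ t : ℝ, fourierT v t = 2 * (Real.pi : ℂ) * (v 0 : ℂ) := by
  set f : ℝ → ℂ := fun E => (v E : ℂ) with hf
  have hp : (2 * Real.pi) ≠ 0 := by positivity
  have e : 𝓕 f = fun x => fourierT v ((2 * Real.pi) * x) := by
    ext x; rw [fourierT_eq, mul_div_cancel_left₀ _ hp]
  have hi : Integrable (𝓕 f) := by rw [e]; exact hv.integrable_fourierT.comp_mul_left' hp
  have h := congrFun ((Complex.continuous_ofReal.comp hv.continuous).fourierInv_fourier_eq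
    hv.integrable.ofReal hi) 0
  rw [Real.fourierInv_eq_fourier_neg, neg_zero, Real.fourier_real_eq_integral_exp_smul] at h
  simp only [mul_zero, Complex.ofReal_zero, zero_mul, Complex.exp_zero, one_smul] at h
  have e' : ∫ x : ℝ, 𝓕 f x = (v 0 : ℂ) := h
  rw [e, Measure.integral_comp_mul_left, abs_of_pos (by positivity : 0 < (2 * Real.pi)⁻¹),
    Complex.real_smul] at e'
  rw [← e']
  push_cast
  field_simp

end Test

theorem fourierT_translate (v : ℝ → ℝ) (q t : ℝ) :
    fourierT (fun E => v (E + q)) t = ph (-q) t * fourierT v t := by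
  rw [fourierT_apply, fourierT_apply, ← integral_const_mul,
    ← integral_add_right_eq_self (fun E => ph (-q) t * ((v E : ℂ) * ph E t)) q]
  congr 1; ext E
  rw [show ph E t = ph (-q) t * ph (E + q) t from by rw [← ph_add]; congr 1; ring]
  ring

theorem fourierT_comp_mul (v : ℝ → ℝ) {a : ℝ} (ha : 0 < a) (t : ℝ) :
    fourierT (fun E => v (a * E)) t = (a : ℂ)⁻¹ * fourierT v (t / a) := by
  have h := Measure.integral_comp_mul_left (fun E => (v E : ℂ) * ph E (t / a)) a
  rw [fourierT_apply, fourierT_apply]
  rw [abs_of_pos (inv_pos.2 ha), Complex.real_smul, Complex.ofReal_inv] at h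
  rw [← h]
  congr 1; ext E
  congr 1
  unfold ph
  push_cast
  field_simp

theorem fourierT_neg (v : ℝ → ℝ) (t : ℝ) :
    fourierT (fun E => v (-E)) t = conj (fourierT v t) := by
  rw [fourierT_apply, fourierT_apply, ← integral_conj, ← integral_neg_eq_self]
  congr 1; ext E
  rw [map_mul, Complex.conj_ofReal, conj_ph, neg_neg]

theorem fourierT_add {v w : ℝ → ℝ} (hv : Test v) (hw : Test w) (t : ℝ) :
    fourierT (fun E => v E + w E) t = fourierT v t + fourierT w t := by
  have hc : Continuous fun E => ph E t :=
    continuous_ph.comp (continuous_id.prodMk continuous_const)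
  have i : ∀ {u : ℝ → ℝ}, Test u → Integrable fun E => (u E : ℂ) * ph E t := fun hu =>
    hu.integrable.ofReal.mul_bdd hc.aestronglyMeasurable (c := 1)
      (Eventually.of_forall fun E => (norm_ph E t).le)
  rw [fourierT_apply, fourierT_apply, fourierT_apply, ← integral_add (i hv) (i hw)]
  congr 1; ext E; push_cast; ring

theorem fourierT_const_mul (v : ℝ → ℝ) (r t : ℝ) :
    fourierT (fun E => r * v E) t = (r : ℂ) * fourierT v t := by
  rw [fourierT_apply, fourierT_apply, ← integral_const_mul]
  congr 1; ext E; push_cast; ring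

variable {H : Type u} [NormedAddCommGroup H] [InnerProductSpace ℂ H] [CompleteSpace H]
  {M : VonNeumannAlgebra H} {Ω : H} (D : ModData M Ω)

/-- Averaging windows over frequencies. -/
theorem integral_smul_vint {c : ℝ → ℂ} (hc : Integrable c) {v : ℝ → ℝ} (hv : Test v) (ξ : H) :
    ∫ E : ℝ, (v E : ℂ) • vint D (fun t => c t * ph E t) ξ =
      vint D (fun t => c t * fourierT v t) ξ := by
  have hint : Integrable (Function.uncurry fun E t : ℝ => ((v E : ℂ) * (c t * ph E t)) • D.U t ξ)
      (volume.prod volume) := by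
    refine (hv.integrable.norm.mul_prod (hc.norm.mul_const ‖ξ‖)).mono' ?_ ?_
    · refine AEStronglyMeasurable.smul ?_ ((D.U_cont ξ).comp continuous_snd).aestronglyMeasurable
      exact ((Complex.continuous_ofReal.comp (hv.continuous.comp
        continuous_fst)).aestronglyMeasurable).mul
        ((hc.1.comp_snd).mul continuous_ph.aestronglyMeasurable)
    · filter_upwards with z
      simp [Function.uncurry, norm_smul, norm_U, norm_ph, mul_assoc]
  calc ∫ E : ℝ, (v E : ℂ) • vint D (fun t => c t * ph E t) ξ
      = ∫ E : ℝ, ∫ t : ℝ, ((v E : ℂ) * (c t * ph E t)) • D.U t ξ := by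
        congr 1; ext E
        rw [vint, ← integral_smul]
        simp only [mul_smul]
    _ = ∫ t : ℝ, ∫ E : ℝ, ((v E : ℂ) * (c t * ph E t)) • D.U t ξ := integral_integral_swap hint
    _ = _ := by
        rw [vint]; congr 1; ext t
        rw [integral_smul_const, fourierT_apply, ← integral_const_mul]
        congr 2; ext E; ring

end Vale.Agent.P132.Fixed
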