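import Vale.Agent.P132.Fixed.Levels
import Vale.Agent.P132.Fixed.Window
import Vale.Agent.P132.Fixed.Fourier

/-!
# The drift tends to zero
-/

namespace Vale.Agent.P132.Fixed

open scoped InnerProductSpace Topology ComplexOrder ComplexConjugate
open Filter MeasureTheory

universe u

variable {H : Type u} [NormedAddCommGroup H] [InnerProductSpace ℂ H] [CompleteSpace H]
  {M : VonNeumannAlgebra H} {Ω : H} {D : ModData M Ω}

variable (F : FlowData M Ω D) (a : H →L[ℂ] H) (P : ℝ) (χ : ℝ → ℝ) (T : ℝ) (N : ℕ)

/-- The entry vector of `[L, ξ]`. -/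
noncomputable def vvec (E : ℝ) : H :=
  vint D (fun t => kwin T t * ph E t) (xop F a P N Ω)

/-- The averaged vector at lag `τ`. -/
noncomputable def zvec (x : H →L[ℂ] H) (τ : ℝ) : H :=
  vint D (dwin T τ) (sig D τ x (x Ω))

/-- The scalar sum over levels. -/
noncomputable def ssum (τ : ℝ) : ℂ :=
  ∑ k : Fin N, ((stp P N * χ (node P N k) ^ 2 : ℝ) : ℂ) * ph (-node P N k) τ

variable {F a P χ T N}

theorem integrable_kwin {T : ℝ} (hT : 0 < T) : Integrable (kwin T) := by
  refine (integrable_gam hT).sub ?_
  simp only [gam_shift]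
  exact ((integrable_gam hT).mul_bdd (continuous_ph.comp (continuous_const.prodMk
    continuous_id)).aestronglyMeasurable (c := 1)
    (Eventually.of_forall fun t => (norm_ph _ t).le)).const_mul _

theorem integrable_kwin_ph {T : ℝ} (hT : 0 < T) (E : ℝ) :
    Integrable fun t => kwin T t * ph E t :=
  (integrable_kwin hT).mul_bdd (continuous_ph.comp (continuous_const.prodMk
    continuous_id)).aestronglyMeasurable (c := 1) (Eventually.of_forall fun t => (norm_ph _ t).le)

variable (S : Setting M Ω D F a P χ)
include S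

theorem vvec_eq (hN : 0 < N) (hT : 0 < T) (E : ℝ) :
    vvec F a P T N E =
      gvec F a P T N E - ((Real.exp (-E / 2) : ℝ) : ℂ) • D.J (gvec F a P T N (-E)) := by
  have hs : Integrable fun t : ℝ => gauss T E ((t : ℂ) + Complex.I / 2) := by
    simp only [gauss_shift]
    exact (integrable_gauss hT _).const_mul _
  rw [gvec, gvec, kms_sa D (xop_mem S hN) (xop_sa S hN) hT, ← vint_const_mul,
    ← vint_sub_left D (integrable_gauss hT _) (hs.const_mul _), vvec]
  congr 1; ext t
  rw [kwin, gauss_eq, gauss, show gam T ((t : ℂ) + Complex.I / 2) =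
    Complex.exp (-(((t : ℂ) + Complex.I / 2) / (T : ℂ)) ^ 2 / 2) from rfl, Complex.ofReal_exp,
    sub_mul, ← mul_assoc, mul_comm (Complex.exp _) (Complex.exp (-(((t : ℂ) + _) / _) ^ 2 / 2)),
    mul_assoc, ← Complex.exp_add, ph]
  congr 3
  push_cast
  linear_combination ((E : ℂ) / 2) * Complex.I_sq

theorem J_vvec (hN : 0 < N) (hT : 0 < T) (E : ℝ) :
    D.J (vvec F a P T N E) = -(((Real.exp (-E / 2) : ℝ) : ℂ) • vvec F a P T N (-E)) := by
  rw [vvec_eq S hN hT, vvec_eq S hN hT, neg_neg, J_sub, D.J_smul, D.J_invol, Complex.conj_ofReal,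
    smul_sub, smul_smul, ← Complex.ofReal_mul, ← Real.exp_add]
  have : -E / 2 + E / 2 = 0 := by ring
  rw [this, Real.exp_zero, Complex.ofReal_one, one_smul]
  abel

theorem cvec_Lmat (hN : 0 < N) (hT : 0 < T) (j k : Fin N) :
    cvec D (cw P N) (Lmat F a P χ T N) j k =
      ((cf P χ N j k * √(cw P N k) : ℝ) : ℂ) • vvec F a P T N (node P N j - node P N k) := by
  have e : cf P χ N k j = cf P χ N j k := by
    unfold cf
    by_cases h : j = k
    · simp [h]
    · rw [if_neg h, if_neg (Ne.symm h)]; ring
  rw [cvec, Lmat_star S hN hT, Lmat_omega hT, Lmat_omega hT, vvec_eq S hN hT, D.J_smul,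
    Complex.conj_ofReal, e, neg_sub, smul_sub, smul_smul, smul_smul, smul_smul,
    ← Complex.ofReal_mul, ← Complex.ofReal_mul, ← Complex.ofReal_mul, mul_comm (√(cw P N k))]
  congr 3
  have h2 : √(cw P N j) = √(cw P N k) * Real.exp (-(node P N j - node P N k) / 2) := by
    have : ∀ i : Fin N, √(cw P N i) = √(lam P N) * Real.exp (-node P N i / 2) := fun i => by
      rw [cw, Real.sqrt_mul (lam_pos P hN).le, Real.exp_half]
    rw [this, this, mul_assoc, ← Real.exp_add]
    congr 2; ring
  rw [h2]; ring_nf

omit S in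
theorem integrable_pair (hT : 0 < T) (x : H →L[ℂ] H) (E : ℝ) :
    Integrable (Function.uncurry fun s τ : ℝ => (ph E τ * dwin T τ s) • D.U s (sig D τ x (x Ω)))
      (volume.prod volume) := by
  have hk := integrable_kwin hT
  have hg := (integrable_gam hT).norm
  have hprod : Integrable (fun p : ℝ × ℝ => ‖kwin T p.1‖ * ‖gam T (p.2 + p.1 : ℝ)‖)
      (volume.prod volume) := by
    have h := (measurePreserving_prod_add (volume : Measure ℝ) volume).integrable_comp
      (g := fun p : ℝ × ℝ => ‖kwin T p.1‖ * ‖gam T p.2‖) (hk.norm.mul_prod hg).1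
    refine (h.2 (hk.norm.mul_prod hg)).congr (Eventually.of_forall fun p => ?_)
    simp [add_comm]
  have cont : Continuous fun p : ℝ × ℝ => (ph E p.2 * dwin T p.2 p.1) • D.U p.1
      (sig D p.2 x (x Ω)) := by
    refine Continuous.smul ?_ (continuous_U_comp D continuous_fst
      (continuous_sig_comp D continuous_snd continuous_const x))
    refine (continuous_ph.comp (continuous_const.prodMk continuous_snd)).mul ?_
    exact (((continuous_gam T).comp (by fun_prop)).sub ((continuous_gam T).comp (by fun_prop))).mul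
      ((continuous_gam T).comp (by fun_prop))
  refine (hprod.mul_const (‖x‖ * ‖x Ω‖)).mono' cont.aestronglyMeasurable
    (Eventually.of_forall fun p => ?_)
  simp only [Function.uncurry, norm_smul, norm_mul, norm_ph, one_mul, dwin, norm_U]
  exact mul_le_mul_of_nonneg_left (norm_sig_le D _ _ _) (by positivity)

omit S in
theorem sop_vvec (hT : 0 < T) (E : ℝ) :
    sop D (fun t => gauss T E (t : ℂ)) (xop F a P N) (vvec F a P T N (-E)) =
      ∫ τ : ℝ, ph E τ • zvec T (D := D) (xop F a P N) τ := by
  set x := xop F a P N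
  have hg := integrable_gauss hT E
  rw [vvec, vint, ← (sop D _ x).integral_comp_comm
    (integrable_smul_U D (integrable_kwin_ph hT (-E)) _)]
  calc ∫ s : ℝ, sop D (fun t => gauss T E (t : ℂ)) x ((kwin T s * ph (-E) s) • D.U s (x Ω))
      = ∫ s : ℝ, ∫ τ : ℝ, (ph E τ * dwin T τ s) • D.U s (sig D τ x (x Ω)) := by
        refine integral_congr_ae (Eventually.of_forall fun s => ?_)
        simp only [map_smul, sop_apply D hg, sig_U]
        rw [← integral_add_right_eq_self _ s]
        refine integral_congr_ae (Eventually.of_forall fun τ => ?_)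
        simp only [add_sub_cancel_right, smul_smul, gauss_eq, dwin]
        congr 1
        have h1 : ph E (τ + s) = ph E τ * ph E s := by
          rw [ph, ph, ph, ← Complex.exp_add]; congr 1; push_cast; ring
        have h2 : ph (-E) s * ph E s = 1 := by rw [← ph_add]; simp [ph]
        rw [h1]
        linear_combination (kwin T s * gam T ((τ + s : ℝ) : ℂ) * ph E τ) * h2
    _ = ∫ τ : ℝ, ∫ s : ℝ, (ph E τ * dwin T τ s) • D.U s (sig D τ x (x Ω)) :=
        integral_integral_swap (integrable_pair hT x E)
    _ = _ := by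
        refine integral_congr_ae (Eventually.of_forall fun τ => ?_)
        simp only [zvec, vint, mul_smul]
        exact integral_smul _ _

theorem integrable_zvec (hT : 0 < T) (x : H →L[ℂ] H) :
    Integrable (zvec (D := D) T x) := by
  have h := (integrable_pair (D := D) hT x 0).integral_prod_right
  refine h.congr (Eventually.of_forall fun τ => ?_)
  simp [zvec, vint, ph]

theorem norm_zvec (hN : 0 < N) (hT : 1 ≤ T) (τ : ℝ) :
    ‖zvec T (D := D) (xop F a P N) τ‖ = ‖zvec T (D := D) a τ‖ := by
  have hk := kap_mem (P := P) hN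
  have hb := S.cl.sig τ a S.bic
  have e : sig D τ (xop F a P N) (xop F a P N Ω) =
      F.beta (lam P N * Real.exp (-1)) (sig D τ a * a) Ω := by
    rw [F.mul _ _ _ hk.1 hk.2 hb S.bic]
    simp only [sig]
    rw [F.sigma _ τ a hk.1 hk.2 S.bic]
    rfl
  rw [zvec, zvec, e, norm_vint_beta F S.cl hk.1 hk.2 (S.cl.mul _ _ hb S.bic)
    (integrable_dwin hT τ)]
  rfl

theorem norm_row_le (hN : 0 < N) (hT : 1 ≤ T) (j : Fin N) :
    ‖∑ k : Fin N, ((cf P χ N j k ^ 2 : ℝ) : ℂ) •
      sop D (fun t => gauss T (node P N j - node P N k) (t : ℂ)) (xop F a P N)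
        (vvec F a P T N (node P N k - node P N j))‖ ≤
      ∫ τ : ℝ, (‖ssum P χ N τ‖ + stp P N) * ‖zvec T (D := D) a τ‖ := by
  have hT0 : 0 < T := by linarith
  set z := zvec T (D := D) (xop F a P N) with hz
  have hzi : Integrable z := integrable_zvec S hT0 _
  have hterm : ∀ k : Fin N, Integrable fun τ =>
      ((cf P χ N j k ^ 2 : ℝ) : ℂ) • (ph (node P N j - node P N k) τ • z τ) := by
    intro k
    refine Integrable.smul _ (hzi.norm.mono' ?_ ?_)
    · exact (continuous_ph.comp (continuous_const.prodMk continuous_id)).aestronglyMeasurable.smul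
        hzi.1
    · filter_upwards with τ; rw [norm_smul, norm_ph, one_mul]
  calc _ = ‖∫ τ : ℝ, ∑ k : Fin N,
        ((cf P χ N j k ^ 2 : ℝ) : ℂ) • (ph (node P N j - node P N k) τ • z τ)‖ := by
        rw [integral_finsetSum _ fun k _ => hterm k]
        congr 1
        refine Finset.sum_congr rfl fun k _ => ?_
        rw [← neg_sub (node P N j), sop_vvec hT0, ← integral_smul]
    _ ≤ _ := by
        refine norm_integral_le_of_norm_le ?_ (Eventually.of_forall fun τ => ?_)
        · have hc : Continuous fun τ => ‖ssum P χ N τ‖ + stp P N := by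
            unfold ssum
            refine (Continuous.norm (continuous_finsetSum _ fun k _ => continuous_const.mul
              (continuous_ph.comp (continuous_const.prodMk continuous_id)))).add continuous_const
          refine (integrable_zvec S hT0 a).norm.bdd_mul hc.aestronglyMeasurable
            (c := (∑ k : Fin N, |stp P N * χ (node P N k) ^ 2|) + stp P N)
            (Eventually.of_forall fun τ => ?_)
          rw [Real.norm_eq_abs, abs_of_nonneg (add_nonneg (norm_nonneg _)
            (stp_pos S.pos hN).le)]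
          refine add_le_add ((norm_sum_le _ _).trans_eq ?_) le_rfl
          simp [norm_ph, abs_mul]
        · rw [← norm_zvec S hN hT τ, ← hz]
          simp only [smul_smul, ← Finset.sum_smul]
          rw [norm_smul]
          refine mul_le_mul_of_nonneg_right ?_ (norm_nonneg _)
          have hh := (stp_pos S.pos hN).le
          have hb1 : χ (node P N j) ^ 2 ≤ 1 := (sq_le_one_iff_abs_le_one _).2 (S.bound _)
          have e : ∑ k : Fin N, ((cf P χ N j k ^ 2 : ℝ) : ℂ) * ph (node P N j - node P N k) τ =
              ((χ (node P N j) ^ 2 : ℝ) : ℂ) * (ph (node P N j) τ * ssum P χ N τ) -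
              ((stp P N * χ (node P N j) ^ 4 : ℝ) : ℂ) := by
            rw [eq_sub_iff_add_eq, ssum, Finset.mul_sum, Finset.mul_sum,
              ← Finset.sum_erase_add _ _ (Finset.mem_univ j),
              ← Finset.sum_erase_add (Finset.univ : Finset (Fin N))
                (fun k => ((χ (node P N j) ^ 2 : ℝ) : ℂ) * _) (Finset.mem_univ j)]
            have h0 : ((cf P χ N j j ^ 2 : ℝ) : ℂ) * ph (node P N j - node P N j) τ = 0 := by
              simp [cf]
            rw [h0, add_zero]
            refine congrArg₂ _ (Finset.sum_congr rfl fun k hk => ?_) ?_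
            · rw [cf, if_neg (Ne.symm (Finset.ne_of_mem_erase hk)), mul_pow, mul_pow,
                Real.sq_sqrt hh, sub_eq_add_neg, ph_add]
              push_cast; ring
            · rw [mul_left_comm (ph (node P N j) τ), ← ph_add, add_neg_cancel]
              simp [ph]; ring
          rw [e]
          refine (norm_sub_le _ _).trans (add_le_add ?_ ?_)
          · rw [norm_mul, norm_mul, norm_ph, one_mul, Complex.norm_real, Real.norm_eq_abs,
              abs_of_nonneg (sq_nonneg _)]
            exact mul_le_of_le_one_left (norm_nonneg _) hb1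
          · rw [Complex.norm_real, Real.norm_eq_abs, abs_of_nonneg (by positivity)]
            exact mul_le_of_le_one_right hh (by nlinarith [sq_nonneg (χ (node P N j))])

theorem drift_le (hN : 0 < N) (hT : 1 ≤ T) :
    drift D (cw P N) (Lmat F a P χ T N) ≤
      2 * ∫ τ : ℝ, (‖ssum P χ N τ‖ + stp P N) * ‖zvec T (D := D) a τ‖ := by
  have hT0 : 0 < T := by linarith
  set I := ∫ τ : ℝ, (‖ssum P χ N τ‖ + stp P N) * ‖zvec T (D := D) a τ‖ with hI
  have hh := (stp_pos S.pos hN).le
  have hI0 : 0 ≤ I := integral_nonneg fun _ => by positivity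
  have hj : ∀ j : Fin N, ‖∑ k, (Lmat F a P χ T N j k (cvec D (cw P N) (Lmat F a P χ T N) k j) -
      D.J (star (Lmat F a P χ T N k j) (D.J (cvec D (cw P N) (Lmat F a P χ T N) j k))))‖ ≤
      √(cw P N j) * (2 * I) := by
    intro j
    set Y := fun k : Fin N => ((cf P χ N j k ^ 2 : ℝ) : ℂ) •
      sop D (fun t => gauss T (node P N j - node P N k) (t : ℂ)) (xop F a P N)
        (vvec F a P T N (node P N k - node P N j)) with hY
    have hk : ∀ k : Fin N, Lmat F a P χ T N j k (cvec D (cw P N) (Lmat F a P χ T N) k j) -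
        D.J (star (Lmat F a P χ T N k j) (D.J (cvec D (cw P N) (Lmat F a P χ T N) j k))) =
        ((√(cw P N j) : ℝ) : ℂ) • (Y k + D.J (Y k)) := by
      intro k
      have e : cf P χ N k j = cf P χ N j k := by
        unfold cf
        by_cases h : j = k
        · simp [h]
        · rw [if_neg h, if_neg (Ne.symm h)]; ring
      have h2 : √(cw P N j) = √(cw P N k) * Real.exp (-(node P N j - node P N k) / 2) := by
        have : ∀ i : Fin N, √(cw P N i) = √(lam P N) * Real.exp (-node P N i / 2) := fun i => by
          rw [cw, Real.sqrt_mul (lam_pos P hN).le, Real.exp_half]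
        rw [this, this, mul_assoc, ← Real.exp_add]
        congr 2; ring
      rw [Lmat_star S hN hT0, cvec_Lmat S hN hT0, cvec_Lmat S hN hT0, D.J_smul,
        J_vvec S hN hT0, Complex.conj_ofReal, neg_sub, hY, Lmat, e]
      simp only [map_smul, map_neg, smul_apply, D.J_smul, Complex.conj_ofReal, smul_neg,
        smul_smul, smul_add]
      rw [← neg_one_smul ℂ (_ • sop D _ _ _), D.J_smul]
      simp only [D.J_smul, map_neg, map_one, map_mul, Complex.conj_ofReal, smul_smul,
        sub_eq_add_neg, ← neg_smul]
      congr 2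
      · push_cast; ring
      · rw [h2]; push_cast; ring_nf
    rw [Finset.sum_congr rfl fun k _ => hk k, ← Finset.smul_sum, Finset.sum_add_distrib,
      ← J_sum, norm_smul, Complex.norm_real, Real.norm_eq_abs, abs_of_nonneg (Real.sqrt_nonneg _)]
    refine mul_le_mul_of_nonneg_left ((norm_add_le _ _).trans ?_) (Real.sqrt_nonneg _)
    rw [norm_J, two_mul]
    exact add_le_add (norm_row_le S hN hT j) (norm_row_le S hN hT j)
  rw [drift, Real.sqrt_le_left (by positivity)]
  calc _ ≤ ∑ j : Fin N, (√(cw P N j) * (2 * I)) ^ 2 :=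
        Finset.sum_le_sum fun j _ => pow_le_pow_left₀ (norm_nonneg _) (hj j) 2
    _ = (2 * I) ^ 2 := by
        simp only [mul_pow, fun j => Real.sq_sqrt (cw_pos P hN j).le, ← Finset.sum_mul]
        rw [sum_cw P hN, one_mul]

/-- The drift tends to zero. -/
theorem drift_small (hχ : Test χ) (hsupp : ∀ p, χ p ≠ 0 → p ∈ Set.Ioo 0 P) {ε : ℝ} (hε : 0 < ε) :
    ∀ᶠ T : ℝ in atTop, ∀ᶠ N : ℕ in atTop, drift D (cw P N) (Lmat F a P χ T N) ≤ ε := by
  have hv : Test fun p => χ p * χ p := hχ.mul_smooth hχ.smooth
  set G := fourierT (fun p => χ p * χ p) with hG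
  have hlim : Tendsto (fun T : ℝ => 2 * ∫ τ : ℝ, ‖G τ‖ * ‖zvec T (D := D) a τ‖) atTop
      (𝓝 (2 * ∫ _τ : ℝ, (0 : ℝ))) := by
    refine Tendsto.const_mul 2 (tendsto_integral_filter_of_dominated_convergence
      (fun τ => ‖G τ‖ * ((∫ u, dom u) * (‖a‖ * ‖a Ω‖))) ?_ ?_ ?_ ?_)
    · filter_upwards [eventually_gt_atTop 0] with T hT
      exact hv.continuous_fourierT.norm.aestronglyMeasurable.mul
        (integrable_zvec S hT a).1.norm
    · filter_upwards [eventually_ge_atTop 1] with T hT
      filter_upwards with τ
      rw [Real.norm_eq_abs, abs_of_nonneg (by positivity)]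
      refine mul_le_mul_of_nonneg_left ?_ (norm_nonneg _)
      refine (norm_vint_le D _ _).trans ?_
      exact mul_le_mul (integral_norm_dwin_le hT τ) (norm_sig_le D τ a _) (norm_nonneg _)
        (integral_nonneg fun u => by unfold dom; positivity)
    · exact hv.integrable_fourierT.norm.mul_const _
    · filter_upwards with τ
      simpa [zvec] using (tendsto_vint_dwin D τ (sig D τ a (a Ω))).const_mul ‖G τ‖
  rw [integral_zero, mul_zero] at hlim
  filter_upwards [hlim.eventually (gt_mem_nhds hε), eventually_ge_atTop 1] with T hTε hT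
  have hT0 : 0 < T := by linarith
  have hsum : ∀ τ, Tendsto (fun N => ‖ssum P χ N τ‖ + stp P N) atTop (𝓝 ‖G τ‖) := by
    intro τ
    have hc : Continuous fun q => ((χ q * χ q : ℝ) : ℂ) * ph (-q) τ :=
      (Complex.continuous_ofReal.comp hv.continuous).mul
        (continuous_ph.comp (continuous_neg.prodMk continuous_const))
    have h1 := grid1 S.pos hc
    have e : (∫ q in (0 : ℝ)..P, ((χ q * χ q : ℝ) : ℂ) * ph (-q) τ) = conj (G τ) := by
      rw [intervalIntegral.integral_of_le S.pos.le, setIntegral_eq_integral_of_forall_compl_eq_zero,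
        hG, fourierT_apply, ← integral_conj]
      · congr 1; ext q; rw [map_mul, Complex.conj_ofReal, conj_ph]
      · intro q hq
        have : χ q = 0 := by
          by_contra h
          exact hq ⟨(hsupp q h).1, (hsupp q h).2.le⟩
        simp [this]
    rw [e] at h1
    have h2 : Tendsto (fun N : ℕ => stp P N) atTop (𝓝 0) :=
      tendsto_const_nhds.div_atTop tendsto_natCast_atTop_atTop
    have := h1.norm.add h2
    rw [add_zero, Complex.norm_conj] at this
    refine this.congr fun N => ?_
    congr 2
    refine Finset.sum_congr rfl fun k _ => ?_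
    rw [Complex.real_smul]; push_cast; ring
  have hN : Tendsto (fun N => 2 * ∫ τ : ℝ, (‖ssum P χ N τ‖ + stp P N) * ‖zvec T (D := D) a τ‖)
      atTop (𝓝 (2 * ∫ τ : ℝ, ‖G τ‖ * ‖zvec T (D := D) a τ‖)) := by
    refine Tendsto.const_mul 2 (tendsto_integral_filter_of_dominated_convergence
      (fun τ => (2 * P) * ‖zvec T (D := D) a τ‖) ?_ ?_ ?_ ?_)
    · refine Eventually.of_forall fun N => ?_
      refine AEStronglyMeasurable.mul ?_ (integrable_zvec S hT0 a).1.norm
      unfold ssum
      exact ((Continuous.norm (continuous_finsetSum _ fun k _ => continuous_const.mul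
        (continuous_ph.comp (continuous_const.prodMk continuous_id)))).add
          continuous_const).aestronglyMeasurable
    · filter_upwards [eventually_gt_atTop 0] with N hN
      filter_upwards with τ
      have hh := (stp_pos S.pos hN).le
      rw [Real.norm_eq_abs, abs_of_nonneg (by positivity), two_mul]
      refine mul_le_mul_of_nonneg_right (add_le_add ?_ ?_) (norm_nonneg _)
      · refine (norm_sum_le _ _).trans ((Finset.sum_le_sum fun (k : Fin N) _ => ?_).trans_eq
          (b := ∑ _k : Fin N, stp P N) ?_)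
        · rw [norm_mul, norm_ph, mul_one, Complex.norm_real, Real.norm_eq_abs,
            abs_of_nonneg (by positivity)]
          exact mul_le_of_le_one_right hh ((sq_le_one_iff_abs_le_one _).2 (S.bound _))
        · simp [stp]; field_simp
      · exact div_le_self S.pos.le (by exact_mod_cast hN)
    · exact (integrable_zvec S hT0 a).norm.const_mul _
    · filter_upwards with τ
      exact (hsum τ).mul_const _
  filter_upwards [hN.eventually (gt_mem_nhds hTε), eventually_gt_atTop 0] with N h1 h2
  exact (drift_le S h2 hT).trans h1.le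

end Vale.Agent.P132.Fixed
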