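import Vale.Agent.P132.Fixed.Positive
import Vale.Agent.P132.Fixed.Ergodic

/-!
# A vector without positive frequencies is fixed

For a selfadjoint `y` the KMS identity exchanges positive and negative frequencies, so if `y Ω` has no
positive frequency it has only frequency zero.
-/

namespace Vale.Agent.P132.Fixed

open scoped InnerProductSpace Topology ComplexOrder ComplexConjugate
open Filter MeasureTheory

universe u

namespace Test

variable {v : ℝ → ℝ}

theorem comp_mul (hv : Test v) {a : ℝ} (ha : a ≠ 0) : Test fun E => v (a * E) :=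
  ⟨hv.smooth.comp (contDiff_const.mul contDiff_id),
    hv.supp.comp_homeomorph (Homeomorph.mulLeft₀ a ha)⟩

theorem comp_neg (hv : Test v) : Test fun E => v (-E) :=
  ⟨hv.smooth.comp contDiff_neg, hv.supp.comp_homeomorph (Homeomorph.neg ℝ)⟩

theorem exp_mul (hv : Test v) (r : ℝ) : Test fun E => Real.exp (r * E) * v E :=
  ⟨(Real.contDiff_exp.comp (contDiff_const.mul contDiff_id)).mul hv.smooth, hv.supp.mul_left⟩

theorem neg (hv : Test v) : Test fun E => -v E := ⟨hv.smooth.neg, hv.supp.neg⟩

theorem add {w : ℝ → ℝ} (hv : Test v) (hw : Test w) : Test fun E => v E + w E :=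
  ⟨hv.smooth.add hw.smooth, hv.supp.add hw.supp⟩

/-- A test function vanishing near `0` may be cut at `0`. -/
theorem cut (hv : Test v) {δ : ℝ} (hδ : 0 < δ) (h0 : ∀ E, |E| < δ → v E = 0) :
    Test fun E => if 0 < E then v E else 0 := by
  refine ⟨contDiff_iff_contDiffAt.2 fun E => ?_, hv.supp.mono' fun E hE => ?_⟩
  · rcases lt_trichotomy E 0 with h | h | h
    · refine (contDiffAt_const (c := (0 : ℝ))).congr_of_eventuallyEq ?_
      filter_upwards [Iio_mem_nhds h] with z hz
      exact if_neg (not_lt.2 (Set.mem_Iio.1 hz).le)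
    · subst h
      refine (contDiffAt_const (c := (0 : ℝ))).congr_of_eventuallyEq ?_
      filter_upwards [Ioo_mem_nhds (neg_lt_zero.2 hδ) hδ] with z hz
      simp [h0 z (abs_lt.2 hz)]
    · refine hv.smooth.contDiffAt.congr_of_eventuallyEq ?_
      filter_upwards [Ioi_mem_nhds h] with z hz
      exact if_pos hz
  · refine subset_tsupport _ ?_
    simp only [Function.mem_support, ne_eq, ite_eq_right_iff, Classical.not_imp] at hE ⊢
    exact hE.2

end Test

/-- A cutoff equal to `1` near `0`. -/
noncomputable def cutoff : ContDiffBump (0 : ℝ) := ⟨1, 2, one_pos, one_lt_two⟩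

theorem test_cutoff : Test (cutoff : ℝ → ℝ) := ⟨cutoff.contDiff, cutoff.hasCompactSupport⟩

theorem cutoff_eq_one {E : ℝ} (hE : |E| ≤ 1) : cutoff E = 1 :=
  cutoff.one_of_mem_closedBall (by simpa [cutoff, Real.dist_eq] using hE)

variable {H : Type u} [NormedAddCommGroup H] [InnerProductSpace ℂ H] [CompleteSpace H]
  {M : VonNeumannAlgebra H} {Ω : H} (D : ModData M Ω)

theorem fsmear_add {v w : ℝ → ℝ} (hv : Test v) (hw : Test w) (ξ : H) :
    fsmear D (fun E => v E + w E) ξ = fsmear D v ξ + fsmear D w ξ := by
  simp only [fsmear_eq]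
  rw [← vint_add_left D hv.integrable_fourierT hw.integrable_fourierT]
  congr 1
  funext t
  exact fourierT_add hv hw t

theorem fsmear_comp_mul (v : ℝ → ℝ) {a : ℝ} (ha : 0 < a) (ξ : H) :
    fsmear D (fun E => v (a * E)) ξ = vint D (scl a (fourierT v)) ξ := by
  rw [fsmear_eq]
  congr 1
  funext t
  rw [fourierT_comp_mul v ha, scl, Complex.ofReal_inv]

theorem tendsto_gam_shift (t : ℝ) :
    Tendsto (fun T : ℝ => gam T ((t : ℂ) + Complex.I / 2)) atTop (𝓝 1) := by
  have h : Tendsto (fun T : ℝ => ((t : ℂ) + Complex.I / 2) * ((T⁻¹ : ℝ) : ℂ)) atTop (𝓝 0) := by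
    simpa using ((Complex.continuous_ofReal.tendsto 0).comp tendsto_inv_atTop_zero).const_mul
      ((t : ℂ) + Complex.I / 2)
  have h2 := (Complex.continuous_exp.tendsto _).comp ((h.pow 2).neg.div_const 2)
  simp only [ne_eq, OfNat.ofNat_ne_zero, not_false_eq_true, zero_pow, neg_zero, zero_div,
    Complex.exp_zero] at h2
  refine h2.congr fun T => ?_
  simp [gam, div_eq_mul_inv, Function.comp_apply]

/-- The smeared KMS identity. -/
theorem fsmear_J {y : H →L[ℂ] H} (hy : y ∈ M) (hs : star y = y) {v : ℝ → ℝ} (hv : Test v) :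
    fsmear D v (D.J (y Ω)) = fsmear D (fun E => Real.exp (1 / 2 * E) * v E) (y Ω) := by
  set w : ℝ → ℝ := fun E => Real.exp (1 / 2 * E) * v E with hw
  have hwT : Test w := hv.exp_mul _
  have hc : ∀ T : ℝ, 0 < T → Integrable fun t : ℝ => gam T ((t : ℂ) + Complex.I / 2) := by
    intro T hT
    simp only [gam_shift]
    exact ((integrable_gauss hT (1 / (2 * T ^ 2))).congr
      (Eventually.of_forall fun t => gauss_eq _ _ _)).const_mul _
  have key : ∀ T : ℝ, 0 < T →
      vint D (fun t => gam T t * fourierT v t) (D.J (y Ω)) =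
        vint D (fun t => gam T ((t : ℂ) + Complex.I / 2) * fourierT w t) (y Ω) := by
    intro T hT
    rw [← integral_smul_vint D (integrable_gam hT) hv, ← integral_smul_vint D (hc T hT) hwT]
    refine integral_congr_ae (Eventually.of_forall fun E => ?_)
    dsimp only
    have hk := kms_sa D hy hs hT E
    rw [J_vint] at hk
    simp only [conj_gauss, neg_neg] at hk
    simp only [← gauss_eq]
    rw [hk, hw]
    push_cast
    rw [mul_comm (Complex.exp _), mul_smul]
    congr 1
    rw [← vint_const_mul]
    congr 1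
    funext t
    simp only [gauss, gam, ph, ← Complex.exp_add]
    congr 1
    linear_combination (-(E : ℂ) / 2) * Complex.I_sq
  refine tendsto_nhds_unique
    (f := fun T : ℝ => vint D (fun t => gam T t * fourierT v t) (D.J (y Ω))) (l := atTop) ?_
    (Tendsto.congr' (f₁ := fun T : ℝ =>
      vint D (fun t => gam T ((t : ℂ) + Complex.I / 2) * fourierT w t) (y Ω)) ?_ ?_)
  · rw [fsmear_eq]
    apply tendsto_vint D hv.integrable_fourierT.norm
    · exact Eventually.of_forall fun T =>
        (((continuous_gam T).comp Complex.continuous_ofReal).mul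
          hv.continuous_fourierT).aestronglyMeasurable
    · refine Eventually.of_forall fun T t => ?_
      rw [norm_mul]
      exact mul_le_of_le_one_left (norm_nonneg _) (norm_gam_le_one T t)
    · intro t; simpa using (tendsto_gam t).mul_const (fourierT v t)
  · filter_upwards [eventually_gt_atTop 0] with T hT using (key T hT).symm
  · rw [fsmear_eq]
    apply tendsto_vint D (hwT.integrable_fourierT.norm.const_mul (Real.exp 1))
    · exact Eventually.of_forall fun T =>
        (((continuous_gam T).comp (Complex.continuous_ofReal.add continuous_const)).mul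
          hwT.continuous_fourierT).aestronglyMeasurable
    · filter_upwards [eventually_ge_atTop 1] with T hT t
      rw [norm_mul, norm_gam_shift]
      refine mul_le_mul_of_nonneg_right ?_ (norm_nonneg _)
      refine (mul_le_of_le_one_right (Real.exp_pos _).le (norm_gam_le_one T t)).trans ?_
      apply Real.exp_le_exp.2
      rw [div_le_iff₀ (by positivity)]
      nlinarith
    · intro t; simpa using (tendsto_gam_shift t).mul_const (fourierT w t)

/-- A selfadjoint vector without positive frequencies is fixed. -/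
theorem fixed_of_pos_zero {y : H →L[ℂ] H} (hy : y ∈ M) (hs : star y = y)
    (hpos : ∀ v : ℝ → ℝ, Test v → (∃ r : ℝ, 0 < r ∧ ∀ E, v E ≠ 0 → r ≤ E) →
      fsmear D v (y Ω) = 0) :
    ∀ t, D.U t (y Ω) = y Ω := by
  -- negative frequencies
  have hneg : ∀ u : ℝ → ℝ, Test u → (∃ r : ℝ, 0 < r ∧ ∀ E, u E ≠ 0 → E ≤ -r) →
      fsmear D u (y Ω) = 0 := by
    intro u hu ⟨r, hr, hsupp⟩
    set v : ℝ → ℝ := fun E => Real.exp (-(1 / 2) * E) * u E with hv
    have hvT : Test v := hu.exp_mul _
    have e : fsmear D v (D.J (y Ω)) = fsmear D u (y Ω) := by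
      rw [fsmear_J D hy hs hvT]
      congr 1
      funext E
      rw [hv]
      dsimp only
      rw [← mul_assoc, ← Real.exp_add]
      simp
    rw [← e]
    have hJ : fsmear D v (D.J (y Ω)) = D.J (fsmear D (fun E => v (-E)) (y Ω)) := by
      rw [fsmear_eq, fsmear_eq, J_vint]
      congr 1
      funext t
      rw [fourierT_neg, Complex.conj_conj]
    rw [hJ, hpos _ hvT.comp_neg ⟨r, hr, fun E hE => ?_⟩, J_zero]
    have h := hsupp (-E) (right_ne_zero_of_mul hE)
    linarith
  -- frequencies away from zero
  have haway : ∀ v : ℝ → ℝ, Test v → ∀ δ : ℝ, 0 < δ → (∀ E, |E| < δ → v E = 0) →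
      fsmear D v (y Ω) = 0 := by
    intro v hv δ hδ h0
    set p : ℝ → ℝ := fun E => if 0 < E then v E else 0 with hp
    have hpT : Test p := hv.cut hδ h0
    set q : ℝ → ℝ := fun E => v E + -p E with hq
    have hqT : Test q := hv.add hpT.neg
    have e : v = fun E => p E + q E := by funext E; simp [hq]
    rw [e, fsmear_add D hpT hqT, hpos p hpT ⟨δ, hδ, fun E hE => ?_⟩,
      hneg q hqT ⟨δ, hδ, fun E hE => ?_⟩, add_zero]
    · by_contra h
      by_cases hE0 : 0 < E
      · exact hE (by simp [hq, hp, hE0])
      · exact hE (by simp [hq, hp, hE0, h0 E (by rw [abs_of_nonpos (not_lt.1 hE0)]; linarith)])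
    · by_contra h
      by_cases hE0 : 0 < E
      · exact hE (by simp [hp, hE0, h0 E (by rw [abs_of_pos hE0]; linarith)])
      · exact hE (by simp [hp, hE0])
  set f : ℝ → ℂ := fourierT (cutoff : ℝ → ℝ) with hf
  have hscale : ∀ a b : ℝ, 0 < a → 0 < b →
      vint D (scl a f) (y Ω) = vint D (scl b f) (y Ω) := by
    intro a b ha hb
    rw [hf, ← fsmear_comp_mul D _ ha, ← fsmear_comp_mul D _ hb]
    have hA := test_cutoff.comp_mul ha.ne'
    have hB := test_cutoff.comp_mul hb.ne'
    have h := haway (fun E => cutoff (a * E) + -cutoff (b * E)) (hA.add hB.neg)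
      (1 / (a + b)) (by positivity) fun E hE => by
        rw [lt_div_iff₀ (by positivity)] at hE
        rw [cutoff_eq_one (by rw [abs_mul, abs_of_pos ha]; nlinarith [abs_nonneg E]),
          cutoff_eq_one (by rw [abs_mul, abs_of_pos hb]; nlinarith [abs_nonneg E])]
        ring
    have e : (fun E => cutoff (a * E)) =
        fun E => (cutoff (a * E) + -cutoff (b * E)) + cutoff (b * E) := by funext E; ring
    rw [e, fsmear_add D (hA.add hB.neg) hB, h, zero_add]
  -- large cutoffs recover the vector
  have hL : vint D (scl 1 f) (y Ω) = (2 * (Real.pi : ℂ)) • y Ω := by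
    have h1 : ∀ R : ℝ, 0 < R →
        vint D (scl R⁻¹ f) (y Ω) = ∫ u : ℝ, f u • D.U (u / R) (y Ω) := by
      intro R hR
      rw [vint]
      have h := Measure.integral_comp_div (fun t : ℝ => scl R⁻¹ f t • D.U t (y Ω)) R
      rw [abs_of_pos hR] at h
      rw [← inv_smul_smul₀ hR.ne' (∫ t : ℝ, scl R⁻¹ f t • D.U t (y Ω)), ← h, ← integral_smul]
      congr 1
      funext u
      have e1 : u / R / R⁻¹ = u := by field_simp
      rw [scl, e1, inv_inv, ← Complex.coe_smul, smul_smul, ← mul_assoc, ← Complex.ofReal_mul,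
        inv_mul_cancel₀ hR.ne', Complex.ofReal_one, one_mul]
    have h2 : Tendsto (fun R : ℝ => ∫ u : ℝ, f u • D.U (u / R) (y Ω)) atTop
        (𝓝 (∫ u : ℝ, f u • y Ω)) := by
      apply tendsto_integral_filter_of_dominated_convergence (fun u => ‖f u‖ * ‖y Ω‖)
      · exact Eventually.of_forall fun R => (test_cutoff.continuous_fourierT.smul
          ((D.U_cont _).comp (continuous_id.div_const R))).aestronglyMeasurable
      · refine Eventually.of_forall fun R => Eventually.of_forall fun u => ?_
        rw [norm_smul, norm_U]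
      · exact test_cutoff.integrable_fourierT.norm.mul_const _
      · filter_upwards with u
        have h3 := ((D.U_cont (y Ω)).tendsto 0).comp
          (tendsto_const_nhds.div_atTop tendsto_id : Tendsto (fun R : ℝ => u / R) atTop (𝓝 0))
        simp only [D.U_zero] at h3
        exact h3.const_smul (f u)
    refine tendsto_nhds_unique
      (f := fun _ : ℝ => vint D (scl 1 f) (y Ω)) (l := atTop) tendsto_const_nhds ?_
    rw [integral_smul_const, hf, test_cutoff.integral_fourierT, cutoff_eq_one (by simp),
      Complex.ofReal_one, mul_one] at h2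
    refine h2.congr' ?_
    filter_upwards [eventually_gt_atTop 0] with R hR
    rw [← hf, ← h1 R hR, hscale 1 R⁻¹ one_pos (inv_pos.2 hR)]
  -- small cutoffs are invariant
  obtain ⟨C, hC⟩ := test_cutoff.decay
  have hC0 : 0 ≤ C := by simpa using (norm_nonneg _).trans (hC 0)
  intro r
  have hinv : Tendsto (fun T : ℝ => vint D (scl T f) (D.U r (y Ω)) - vint D (scl T f) (y Ω))
      atTop (𝓝 0) := by
    refine tendsto_scl_translate D test_cutoff.continuous_fourierT test_cutoff.integrable_fourierT
      (integrable_inv_one_add_sq.const_mul (3 * C)) (fun q s hq => (hC (s - q)).trans ?_) r _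
    rw [mul_comm 3 C, mul_assoc]
    refine mul_le_mul_of_nonneg_left ?_ hC0
    rw [← div_eq_mul_inv, le_div_iff₀ (by positivity), inv_mul_le_iff₀ (by positivity)]
    have := (sq_le_one_iff_abs_le_one q).2 hq
    nlinarith [sq_nonneg (s - 2 * q)]
  have hfix : Tendsto (fun _ : ℝ => D.U r (vint D (scl 1 f) (y Ω)) - vint D (scl 1 f) (y Ω))
      atTop (𝓝 0) := by
    refine hinv.congr' ?_
    filter_upwards [eventually_gt_atTop 0] with T hT
    rw [hscale 1 T one_pos hT,
      U_vint D (integrable_scl hT test_cutoff.integrable_fourierT)]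
  have h := tendsto_nhds_unique tendsto_const_nhds hfix
  rw [hL, map_smul, ← smul_sub, smul_eq_zero, sub_eq_zero] at h
  exact h.resolve_left (by simp [Real.pi_ne_zero])

end Vale.Agent.P132.Fixed
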