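import Vale.Agent.P132.Fixed.Vint

/-!
# Gaussian windows and the KMS identity
-/

namespace Vale.Agent.P132.Fixed

open scoped InnerProductSpace Topology ComplexOrder ComplexConjugate
open Filter MeasureTheory

universe u

/-- The Gaussian of width `T`. -/
noncomputable def gam (T : ℝ) (z : ℂ) : ℂ := Complex.exp (-(z / (T : ℂ)) ^ 2 / 2)

/-- `exp(-iEt)`. -/
noncomputable def ph (E t : ℝ) : ℂ := Complex.exp (-(Complex.I * (E : ℂ) * (t : ℂ)))

theorem gauss_eq (T E t : ℝ) : gauss T E (t : ℂ) = gam T t * ph E t := rfl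

theorem norm_ph (E t : ℝ) : ‖ph E t‖ = 1 := by
  simp [ph, Complex.norm_exp]

theorem ph_add (E F t : ℝ) : ph (E + F) t = ph E t * ph F t := by
  rw [ph, ph, ph, ← Complex.exp_add]; congr 1; push_cast; ring

theorem conj_ph (E t : ℝ) : conj (ph E t) = ph (-E) t := by
  rw [ph, ph, ← Complex.exp_conj]; congr 1; simp

theorem continuous_ph : Continuous fun p : ℝ × ℝ => ph p.1 p.2 := by
  unfold ph; fun_prop

theorem gam_ofReal (T t : ℝ) : gam T t = ((Real.exp (-(t / T) ^ 2 / 2) : ℝ) : ℂ) := by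
  rw [gam]; push_cast; rfl

theorem conj_gam (T t : ℝ) : conj (gam T t) = gam T t := by
  rw [gam_ofReal, Complex.conj_ofReal]

theorem norm_gam (T t : ℝ) : ‖gam T t‖ = Real.exp (-(t / T) ^ 2 / 2) := by
  rw [gam_ofReal, Complex.norm_real, Real.norm_eq_abs, abs_of_pos (Real.exp_pos _)]

theorem norm_gam_le_one (T t : ℝ) : ‖gam T t‖ ≤ 1 := by
  rw [norm_gam, Real.exp_le_one_iff]
  have := sq_nonneg (t / T); linarith

theorem continuous_gam (T : ℝ) : Continuous (gam T) := by unfold gam; fun_prop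

theorem integrable_gam {T : ℝ} (hT : 0 < T) : Integrable fun t : ℝ => gam T t := by
  have h := (integrable_exp_neg_mul_sq (b := 1 / (2 * T ^ 2)) (by positivity)).ofReal (𝕜 := ℂ)
  refine h.congr (Eventually.of_forall fun t => ?_)
  simp only [gam_ofReal]
  congr 2
  field_simp

theorem integrable_gauss {T : ℝ} (hT : 0 < T) (E : ℝ) : Integrable fun t : ℝ => gauss T E t := by
  simp only [gauss_eq]
  exact (integrable_gam hT).mul_bdd
    (continuous_ph.comp (continuous_const.prodMk continuous_id)).aestronglyMeasurable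
    (c := 1) (Eventually.of_forall fun t => (norm_ph E t).le)

theorem conj_gauss (T E t : ℝ) : conj (gauss T E (t : ℂ)) = gauss T (-E) (t : ℂ) := by
  rw [gauss_eq, gauss_eq, map_mul, conj_gam, conj_ph]

theorem gauss_neg (T E t : ℝ) : gauss T E ((-t : ℝ) : ℂ) = gauss T (-E) (t : ℂ) := by
  unfold gauss
  congr 1
  · push_cast; congr 1; ring
  · push_cast; congr 1; ring

theorem gam_shift (T t : ℝ) : gam T ((t : ℂ) + Complex.I / 2) =
    ((Real.exp (1 / (8 * T ^ 2)) : ℝ) : ℂ) * (gam T t * ph (1 / (2 * T ^ 2)) t) := by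
  rw [gam, gam, ph, ← Complex.exp_add, Complex.ofReal_exp, ← Complex.exp_add]
  congr 1
  push_cast
  linear_combination (-(1 : ℂ) / (8 * (T : ℂ) ^ 2)) * Complex.I_sq

theorem gauss_shift (T E t : ℝ) : gauss T E ((t : ℂ) + Complex.I / 2) =
    ((Real.exp (E / 2 + 1 / (8 * T ^ 2)) : ℝ) : ℂ) * gauss T (E + 1 / (2 * T ^ 2)) (t : ℂ) := by
  have h := gam_shift T t
  unfold gam at h
  rw [gauss, h, gauss_eq, ph_add, gam, ph, ph, Real.exp_add, Complex.ofReal_mul]
  have : Complex.exp (-(Complex.I * (E : ℂ) * ((t : ℂ) + Complex.I / 2))) =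
      ((Real.exp (E / 2) : ℝ) : ℂ) * Complex.exp (-(Complex.I * (E : ℂ) * (t : ℂ))) := by
    rw [Complex.ofReal_exp, ← Complex.exp_add]
    congr 1
    push_cast
    linear_combination (-(E : ℂ) / 2) * Complex.I_sq
  rw [this]
  ring

theorem norm_gam_shift (T t : ℝ) : ‖gam T ((t : ℂ) + Complex.I / 2)‖ =
    Real.exp (1 / (8 * T ^ 2)) * ‖gam T t‖ := by
  rw [gam_shift, norm_mul, norm_mul, norm_ph, mul_one, Complex.norm_real, Real.norm_eq_abs,
    abs_of_pos (Real.exp_pos _)]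

variable {H : Type u} [NormedAddCommGroup H] [InnerProductSpace ℂ H] [CompleteSpace H]
  {M : VonNeumannAlgebra H} {Ω : H} (D : ModData M Ω)

/-- `kms` for a selfadjoint element. -/
theorem kms_sa {y : H →L[ℂ] H} (hy : y ∈ M) (hs : star y = y) {T : ℝ} (hT : 0 < T) (E : ℝ) :
    D.J (vint D (fun t => gauss T (-E) (t : ℂ)) (y Ω)) =
      vint D (fun t => gauss T E ((t : ℂ) + Complex.I / 2)) (y Ω) := by
  have h := D.kms y hy T E hT
  simpa [vint, hs, conj_gauss] using h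

theorem vint_gauss_shift (T E : ℝ) (ξ : H) :
    vint D (fun t => gauss T E ((t : ℂ) + Complex.I / 2)) ξ =
      ((Real.exp (E / 2 + 1 / (8 * T ^ 2)) : ℝ) : ℂ) •
        vint D (fun t => gauss T (E + 1 / (2 * T ^ 2)) (t : ℂ)) ξ := by
  simp only [gauss_shift]
  exact vint_const_mul D _ _ _

/-- Moving a window across the inner product. -/
theorem inner_vint_gauss (T E : ℝ) (hT : 0 < T) (η ξ : H) :
    ⟪vint D (fun t => gauss T E (t : ℂ)) η, ξ⟫_ℂ =
      ⟪η, vint D (fun t => gauss T E (t : ℂ)) ξ⟫_ℂ := by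
  have hE := integrable_gauss hT E
  rw [← inner_conj_symm, inner_vint D hE, inner_vint D hE, ← integral_conj, ← integral_neg_eq_self]
  refine integral_congr_ae (Eventually.of_forall fun t => ?_)
  simp only [map_mul, inner_conj_symm, inner_U_left, neg_neg]
  rw [conj_gauss, gauss_neg, neg_neg]

/-- `⟪X* Ω, b Ω⟫ = ⟪b Ω, e^(E + 1/(2T²)) X' Ω⟫`. -/
theorem kms_inner {x b : H →L[ℂ] H} (hx : x ∈ M) (hxs : star x = x) (hb : b ∈ M)
    (hbs : star b = b) {T : ℝ} (hT : 0 < T) (E : ℝ) :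
    ⟪vint D (fun t => gauss T (-E) (t : ℂ)) (x Ω), b Ω⟫_ℂ =
      ((Real.exp (E + 1 / (2 * T ^ 2)) : ℝ) : ℂ) *
        ⟪b Ω, vint D (fun t => gauss T (E + 1 / T ^ 2) (t : ℂ)) (x Ω)⟫_ℂ := by
  have h1 := kms_sa D hx hxs hT E
  rw [vint_gauss_shift] at h1
  have h2 := kms_sa D hb hbs hT (E + 1 / (2 * T ^ 2))
  rw [vint_gauss_shift] at h2
  rw [← D.J_inner (b Ω), h1, inner_smul_right, ← inner_vint_gauss D T _ hT,
    show D.J (b Ω) = D.J (b Ω) from rfl, J_vint_gauss D T (E + 1 / (2 * T ^ 2)) (b Ω), h2,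
    inner_smul_left, inner_vint_gauss D T _ hT, Complex.conj_ofReal, ← mul_assoc,
    ← Complex.ofReal_mul, ← Real.exp_add,
    show E + 1 / (2 * T ^ 2) + 1 / (2 * T ^ 2) = E + 1 / T ^ 2 from by field_simp; ring]
  congr 2
  congr 1
  field_simp
  ring
where
  J_vint_gauss (D : ModData M Ω) (T E : ℝ) (ξ : H) :
      vint D (fun t => gauss T E (t : ℂ)) (D.J ξ) =
        D.J (vint D (fun t => gauss T (-E) (t : ℂ)) ξ) := by
    rw [J_vint]; simp [conj_gauss]

end Vale.Agent.P132.Fixed
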