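import Vale.Agent.P132.Fixed.Pairing

/-!
# The key inequality
-/

namespace Vale.Agent.P132.Fixed

open scoped InnerProductSpace Topology ComplexOrder ComplexConjugate
open Filter MeasureTheory

universe u

variable {H : Type u} [NormedAddCommGroup H] [InnerProductSpace ℂ H] [CompleteSpace H]
  {M : VonNeumannAlgebra H} {Ω : H} {D : ModData M Ω}

theorem swap2 {E : Type*} [NormedAddCommGroup E] [NormedSpace ℝ E] {P : ℝ} (hP : 0 < P)
    {f : ℝ → ℝ → E} (hf : Continuous f.uncurry) (hsupp : ∀ p q, p ∉ Set.Ioo 0 P → f p q = 0) :
    ∫ p in (0 : ℝ)..P, ∫ q in (0 : ℝ)..P, f p q =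
      ∫ q in (0 : ℝ)..P, ∫ p : ℝ, f p q := by
  have hi : Integrable f.uncurry
      ((volume.restrict (Set.Ioc 0 P)).prod (volume.restrict (Set.Ioc 0 P))) := by
    rw [Measure.prod_restrict]
    exact (hf.continuousOn.integrableOn_compact (isCompact_Icc.prod isCompact_Icc)).mono_set
      (Set.prod_mono Set.Ioc_subset_Icc_self Set.Ioc_subset_Icc_self)
  simp only [intervalIntegral.integral_of_le hP.le]
  rw [integral_integral_swap hi]
  refine integral_congr_ae (Eventually.of_forall fun q => ?_)
  exact setIntegral_eq_integral_of_forall_compl_eq_zero fun p hp =>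
    hsupp p q fun h => hp ⟨h.1, h.2.le⟩

/-- The tested function seen from level `q`. -/
noncomputable def trv (v : ℝ → ℝ) (q : ℝ) (E : ℝ) : ℝ := v (E + (q - 1))

theorem trv_test {v : ℝ → ℝ} (hv : Test v) (q : ℝ) : Test (trv v q) :=
  ⟨hv.smooth.comp (contDiff_id.add contDiff_const),
    hv.supp.comp_homeomorph (Homeomorph.addRight (q - 1))⟩

theorem fourierT_trv (v : ℝ → ℝ) (q t : ℝ) :
    fourierT (trv v q) t = ph (1 - q) t * fourierT v t := by
  have := fourierT_translate v (q - 1) t
  rw [show -(q - 1) = 1 - q by ring] at this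
  exact this

variable (D) in
/-- The smeared vector seen from level `q`. -/
noncomputable def shifted (v : ℝ → ℝ) (ξ : H) (q : ℝ) : H :=
  vint D (fun t => ph (1 - q) t * fourierT v t) ξ

theorem continuous_shifted {v : ℝ → ℝ} (hv : Test v) (ξ : H) :
    Continuous (shifted D v ξ) := by
  unfold shifted vint
  apply continuous_of_dominated (bound := fun t : ℝ => ‖fourierT v t‖ * ‖ξ‖)
  · intro q
    exact ((continuous_ph.comp (continuous_const.prodMk continuous_id)).mul
      hv.continuous_fourierT).aestronglyMeasurable.smul (D.U_cont ξ).aestronglyMeasurable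
  · intro q; filter_upwards with t
    rw [norm_smul, norm_mul, norm_ph, one_mul, norm_U]
  · exact hv.integrable_fourierT.norm.mul_const _
  · filter_upwards with t
    exact ((continuous_ph.comp ((continuous_const.sub continuous_id).prodMk
      continuous_const)).mul continuous_const).smul continuous_const

theorem shifted_one (v : ℝ → ℝ) (ξ : H) : shifted D v ξ 1 = fsmear D v ξ := by
  simp [shifted, fsmear_eq, ph]

variable (F : FlowData M Ω D) {a : H →L[ℂ] H} {P : ℝ} {χ u w₂ : ℝ → ℝ}

/-- The test at the first level. -/
noncomputable def uw (u : ℝ → ℝ) (p : ℝ) : ℝ := u (p - 1)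

/-- The limit of the second term. -/
noncomputable def Lfun (a : H →L[ℂ] H) (u : ℝ → ℝ) (q : ℝ) : ℂ :=
  ((Real.exp (1 - q) : ℝ) : ℂ) *
    ⟪orb F a q, shifted D (fun E => u E * Real.exp E) (orb F a 1) q⟫_ℂ

variable (D) in
/-- The bound of the first term. -/
noncomputable def Rfun (η : H) (u : ℝ → ℝ) (q : ℝ) : ℝ := (⟪η, shifted D u η q⟫_ℂ).re

variable {F}
variable (S : Setting M Ω D F a P χ) (W : Weights P χ (uw u) w₂) (hu : Test u)
include S

theorem dens_orb (T : ℝ) (hT : 0 < T) (p E : ℝ) :
    dens D T (orb F a p) E = dens D T (a Ω) E := by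
  unfold dens half orb
  rw [norm_vint_beta F S.cl (exp_max_mem p).1 (exp_max_mem p).2 S.bic
    (integrable_gauss (by positivity) E)]

include W hu

theorem uw_support (p : ℝ) (hp : p ∉ Set.Ioo 0 P) : uw u p = 0 := by
  by_contra h
  exact hp (W.one₁ p h).2

theorem f₁_le {T : ℝ} (hT : 0 < T) :
    ‖∫ p in (0 : ℝ)..P, ∫ q in (0 : ℝ)..P, f₁ (uw u) w₂ F a T p q‖ ≤
      ∫ q in (0 : ℝ)..P, w₂ q * ∫ E : ℝ, trv u q E * dens D T (a Ω) E := by
  have hP := S.pos
  rw [swap2 hP (continuous_f₁ S W hT) fun p q hp => by simp [f₁, uw_support S W hu p hp]]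
  have hc : Continuous fun q => w₂ q * ∫ E : ℝ, trv u q E * dens D T (a Ω) E := by
    refine W.test₂.continuous.mul ?_
    have e : ∀ q, (∫ E : ℝ, trv u q E * dens D T (a Ω) E) =
        (⟪a Ω, vint D (fun t => gam T t * (ph (1 - q) t * fourierT u t)) (a Ω)⟫_ℂ).re := by
      intro q
      simp only [← fourierT_trv, ← integral_inner_window D hT (trv_test hu q),
        inner_window_self D hT, ← Complex.ofReal_mul, integral_complex_ofReal, Complex.ofReal_re]
    simp only [e]
    refine Complex.continuous_re.comp (continuous_const.inner ?_)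
    unfold vint
    apply continuous_of_dominated (bound := fun t : ℝ => ‖fourierT u t‖ * ‖a Ω‖)
    · intro q
      exact ((((continuous_gam T).comp Complex.continuous_ofReal)).mul
        ((continuous_ph.comp (continuous_const.prodMk continuous_id)).mul
          hu.continuous_fourierT)).aestronglyMeasurable.smul (D.U_cont _).aestronglyMeasurable
    · intro q; filter_upwards with t
      rw [norm_smul, norm_mul, norm_mul, norm_ph, one_mul, norm_U]
      exact mul_le_mul_of_nonneg_right (mul_le_of_le_one_left (norm_nonneg _)
        (norm_gam_le_one T t)) (norm_nonneg _)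
    · exact hu.integrable_fourierT.norm.mul_const _
    · filter_upwards with t
      exact (continuous_const.mul ((continuous_ph.comp ((continuous_const.sub
        continuous_id).prodMk continuous_const)).mul continuous_const)).smul continuous_const
  refine intervalIntegral.norm_integral_le_of_norm_le hP.le (Eventually.of_forall fun q _ => ?_)
    (hc.intervalIntegrable 0 P)
  have e : w₂ q * ∫ E : ℝ, trv u q E * dens D T (a Ω) E =
      ∫ p : ℝ, uw u p * w₂ q * dens D T (a Ω) (p - q) := by
    rw [← integral_add_right_eq_self (fun p => uw u p * w₂ q * dens D T (a Ω) (p - q)) q,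
      ← integral_const_mul]
    refine integral_congr_ae (Eventually.of_forall fun E => ?_)
    simp only [trv, uw, add_sub_cancel_right, add_sub_assoc]
    ring
  rw [e]
  refine norm_integral_le_of_norm_le ?_ (Eventually.of_forall fun p => ?_)
  · exact Continuous.integrable_of_hasCompactSupport
      ((W.test₁.continuous.mul continuous_const).mul
        ((continuous_dens D hT _).comp (continuous_id.sub continuous_const)))
      W.test₁.supp.mul_right.mul_right
  · rw [f₁, norm_mul, Complex.norm_real, Real.norm_of_nonneg (mul_nonneg (W.nn₁ p) (W.nn₂ q))]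
    refine mul_le_mul_of_nonneg_left ?_ (mul_nonneg (W.nn₁ p) (W.nn₂ q))
    refine (norm_inner_window_le D hT (p - q) _ _ one_pos).trans_eq ?_
    rw [dens_orb S T hT, dens_orb S T hT]; ring

theorem tendsto_f₁_bound :
    Tendsto (fun T : ℝ => ∫ q in (0 : ℝ)..P, w₂ q * ∫ E : ℝ, trv u q E * dens D T (a Ω) E) atTop
      (𝓝 (∫ q in (0 : ℝ)..P, w₂ q * Rfun D (a Ω) u q)) := by
  have e : ∀ T : ℝ, 0 < T → ∀ q, (∫ E : ℝ, trv u q E * dens D T (a Ω) E) =
      (⟪a Ω, vint D (fun t => gam T t * (ph (1 - q) t * fourierT u t)) (a Ω)⟫_ℂ).re := by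
    intro T hT q
    simp only [← fourierT_trv, ← integral_inner_window D hT (trv_test hu q),
      inner_window_self D hT, ← Complex.ofReal_mul, integral_complex_ofReal, Complex.ofReal_re]
  apply intervalIntegral.tendsto_integral_filter_of_dominated_convergence
    (fun _ => (∫ t : ℝ, ‖fourierT u t‖) * ‖a Ω‖ * ‖a Ω‖)
  · filter_upwards [eventually_gt_atTop 0] with T hT
    refine (Continuous.aestronglyMeasurable ?_)
    refine W.test₂.continuous.mul ?_
    simp only [e T hT]
    refine Complex.continuous_re.comp (continuous_const.inner ?_)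
    unfold vint
    apply continuous_of_dominated (bound := fun t : ℝ => ‖fourierT u t‖ * ‖a Ω‖)
    · intro q
      exact ((((continuous_gam T).comp Complex.continuous_ofReal)).mul
        ((continuous_ph.comp (continuous_const.prodMk continuous_id)).mul
          hu.continuous_fourierT)).aestronglyMeasurable.smul (D.U_cont _).aestronglyMeasurable
    · intro q; filter_upwards with t
      rw [norm_smul, norm_mul, norm_mul, norm_ph, one_mul, norm_U]
      exact mul_le_mul_of_nonneg_right (mul_le_of_le_one_left (norm_nonneg _)
        (norm_gam_le_one T t)) (norm_nonneg _)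
    · exact hu.integrable_fourierT.norm.mul_const _
    · filter_upwards with t
      exact (continuous_const.mul ((continuous_ph.comp ((continuous_const.sub
        continuous_id).prodMk continuous_const)).mul continuous_const)).smul continuous_const
  · filter_upwards [eventually_gt_atTop 0] with T hT
    filter_upwards with q _
    rw [e T hT, norm_mul, Real.norm_of_nonneg (W.nn₂ q)]
    refine (mul_le_of_le_one_left (norm_nonneg _) (W.le₂ q)).trans ?_
    refine (Complex.abs_re_le_norm _).trans ((norm_inner_le_norm _ _).trans ?_)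
    rw [mul_comm]
    refine mul_le_mul_of_nonneg_right ((norm_vint_le D _ _).trans ?_) (norm_nonneg _)
    refine mul_le_mul_of_nonneg_right (integral_mono_of_nonneg
      (Eventually.of_forall fun _ => norm_nonneg _) hu.integrable_fourierT.norm
      (Eventually.of_forall fun t => ?_)) (norm_nonneg _)
    simp only [norm_mul, norm_ph, one_mul]
    exact mul_le_of_le_one_left (norm_nonneg _) (norm_gam_le_one T t)
  · exact intervalIntegrable_const
  · filter_upwards with q _
    refine Tendsto.const_mul _ ?_
    have := tendsto_dens D (trv_test hu q) (a Ω)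
    have e2 : fsmear D (trv u q) (a Ω) = shifted D u (a Ω) q := by
      simp only [fsmear_eq, shifted, funext (fourierT_trv u q)]
    rwa [e2] at this

theorem f₂_eq {T : ℝ} (hT : 0 < T) :
    (∫ p in (0 : ℝ)..P, ∫ q in (0 : ℝ)..P, f₂ (uw u) w₂ F a T p q) =
      ((Real.exp (1 / (2 * T ^ 2)) : ℝ) : ℂ) * ∫ q in (0 : ℝ)..P,
        ((w₂ q * Real.exp (1 - q) : ℝ) : ℂ) * ⟪orb F a q, vint D (fun t => gam T t *
          ph (1 / T ^ 2) t * (ph (1 - q) t * fourierT (fun E => u E * Real.exp E) t))
            (orb F a 1)⟫_ℂ := by
  have hP := S.pos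
  have hv : Test fun E => u E * Real.exp E := hu.mul_smooth Real.contDiff_exp
  rw [swap2 hP (continuous_f₂ S W hT) fun p q hp => by simp [f₂, uw_support S W hu p hp],
    ← intervalIntegral.integral_const_mul]
  refine intervalIntegral.integral_congr fun q _ => ?_
  have hc : Integrable fun t : ℝ => gam T t * ph (1 / T ^ 2) t :=
    (integrable_gam hT).mul_bdd (continuous_ph.comp (continuous_const.prodMk
      continuous_id)).aestronglyMeasurable (c := 1) (Eventually.of_forall fun t => (norm_ph _ t).le)
  set c := Real.exp (1 / (2 * T ^ 2)) * (w₂ q * Real.exp (1 - q)) with hcdef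
  have hi : Integrable fun E : ℝ => (trv (fun E => u E * Real.exp E) q E : ℂ) •
      vint D (fun t => gam T t * ph (1 / T ^ 2) t * ph E t) (orb F a 1) := by
    refine Continuous.integrable_of_hasCompactSupport ?_ ?_
    · refine (Complex.continuous_ofReal.comp (trv_test hv q).continuous).smul ?_
      have : ∀ E : ℝ, vint D (fun t => gam T t * ph (1 / T ^ 2) t * ph E t) (orb F a 1) =
          vint D (fun t => gauss T (E + 1 / T ^ 2) (t : ℂ)) (orb F a 1) := by
        intro E; congr 1; ext t; rw [gauss_eq, ph_add]; ring
      simp only [this]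
      exact (continuous_window D hT _).comp (continuous_id.add continuous_const)
    · exact ((trv_test hv q).supp.comp_left Complex.ofReal_zero).smul_right
  simp only [← fourierT_trv]
  rw [← integral_smul_vint D hc (trv_test hv q), ← integral_inner hi,
    ← mul_assoc, ← Complex.ofReal_mul, ← hcdef, ← integral_const_mul,
    ← integral_add_right_eq_self (fun p => f₂ (uw u) w₂ F a T p q) q]
  refine integral_congr_ae (Eventually.of_forall fun E => ?_)
  simp only [f₂, inner_smul_right, add_sub_cancel_right, trv, uw, add_sub_assoc]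
  rw [← mul_assoc, ← Complex.ofReal_mul]
  congr 1
  · congr 1
    rw [hcdef, show Real.exp (E + 1 / (2 * T ^ 2)) =
      Real.exp (1 / (2 * T ^ 2)) * (Real.exp (1 - q) * Real.exp (E + (q - 1))) from by
        rw [← Real.exp_add, ← Real.exp_add]; congr 1; ring]
    ring
  · congr 2; ext t; rw [gauss_eq, ph_add]; ring

theorem tendsto_f₂ :
    Tendsto (fun T : ℝ => ∫ p in (0 : ℝ)..P, ∫ q in (0 : ℝ)..P, f₂ (uw u) w₂ F a T p q) atTop
      (𝓝 (∫ q in (0 : ℝ)..P, (w₂ q : ℂ) * Lfun F a u q)) := by
  have hv : Test fun E => u E * Real.exp E := hu.mul_smooth Real.contDiff_exp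
  set ve := fun E => u E * Real.exp E with hve
  have h1 : Tendsto (fun T : ℝ => ((Real.exp (1 / (2 * T ^ 2)) : ℝ) : ℂ)) atTop (𝓝 1) := by
    have : Tendsto (fun T : ℝ => 1 / (2 * T ^ 2)) atTop (𝓝 0) :=
      tendsto_const_nhds.div_atTop ((tendsto_pow_atTop (by norm_num)).const_mul_atTop two_pos)
    have h := (Complex.continuous_ofReal.tendsto _).comp
      ((Real.continuous_exp.tendsto _).comp this)
    rw [Real.exp_zero, Complex.ofReal_one] at h
    exact h
  have h2 : Tendsto (fun T : ℝ => ∫ q in (0 : ℝ)..P, ((w₂ q * Real.exp (1 - q) : ℝ) : ℂ) *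
      ⟪orb F a q, vint D (fun t => gam T t * ph (1 / T ^ 2) t * (ph (1 - q) t * fourierT ve t))
        (orb F a 1)⟫_ℂ) atTop (𝓝 (∫ q in (0 : ℝ)..P, (w₂ q : ℂ) * Lfun F a u q)) := by
    apply intervalIntegral.tendsto_integral_filter_of_dominated_convergence
      (fun _ => Real.exp 1 * (‖a Ω‖ * ((∫ t : ℝ, ‖fourierT ve t‖) * ‖a Ω‖)))
    · refine Eventually.of_forall fun T => Continuous.aestronglyMeasurable ?_
      refine (Complex.continuous_ofReal.comp (W.test₂.continuous.mul
        (Real.continuous_exp.comp (continuous_const.sub continuous_id)))).mul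
        ((continuous_orb F S.bic).inner ?_)
      unfold vint
      apply continuous_of_dominated (bound := fun t : ℝ => ‖fourierT ve t‖ * ‖orb F a 1‖)
      · intro q
        exact (((((continuous_gam T).comp Complex.continuous_ofReal)).mul
          (continuous_ph.comp (continuous_const.prodMk continuous_id))).mul
          ((continuous_ph.comp (continuous_const.prodMk continuous_id)).mul
            hv.continuous_fourierT)).aestronglyMeasurable.smul (D.U_cont _).aestronglyMeasurable
      · intro q; filter_upwards with t
        rw [norm_smul, norm_mul, norm_mul, norm_mul, norm_ph, norm_ph, one_mul, mul_one, norm_U]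
        exact mul_le_mul_of_nonneg_right (mul_le_of_le_one_left (norm_nonneg _)
          (norm_gam_le_one T t)) (norm_nonneg _)
      · exact hv.integrable_fourierT.norm.mul_const _
      · filter_upwards with t
        exact (continuous_const.mul ((continuous_ph.comp ((continuous_const.sub
          continuous_id).prodMk continuous_const)).mul continuous_const)).smul continuous_const
    · refine Eventually.of_forall fun T => ?_
      filter_upwards with q hq
      rw [Set.uIoc_of_le S.pos.le] at hq
      rw [norm_mul, Complex.norm_real,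
        Real.norm_of_nonneg (mul_nonneg (W.nn₂ q) (Real.exp_pos _).le)]
      refine mul_le_mul ?_ ((norm_inner_le_norm _ _).trans ?_) (norm_nonneg _) (Real.exp_pos _).le
      · exact (mul_le_of_le_one_left (Real.exp_pos _).le (W.le₂ q)).trans
          (Real.exp_le_exp.2 (by linarith [hq.1]))
      · rw [norm_orb F S.cl S.bic]
        refine mul_le_mul_of_nonneg_left ((norm_vint_le D _ _).trans ?_) (norm_nonneg _)
        rw [norm_orb F S.cl S.bic]
        refine mul_le_mul_of_nonneg_right (integral_mono_of_nonneg
          (Eventually.of_forall fun _ => norm_nonneg _) hv.integrable_fourierT.norm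
          (Eventually.of_forall fun t => ?_)) (norm_nonneg _)
        simp only [norm_mul, norm_ph, one_mul, mul_one]
        exact mul_le_of_le_one_left (norm_nonneg _) (norm_gam_le_one T t)
    · exact intervalIntegrable_const
    · filter_upwards with q _
      have : Tendsto (fun T : ℝ => vint D (fun t => gam T t * ph (1 / T ^ 2) t *
          (ph (1 - q) t * fourierT ve t)) (orb F a 1)) atTop
          (𝓝 (shifted D ve (orb F a 1) q)) := by
        apply tendsto_vint D hv.integrable_fourierT.norm
        · exact Eventually.of_forall fun T =>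
            (((((continuous_gam T).comp Complex.continuous_ofReal)).mul
            (continuous_ph.comp (continuous_const.prodMk continuous_id))).mul
            ((continuous_ph.comp (continuous_const.prodMk continuous_id)).mul
              hv.continuous_fourierT)).aestronglyMeasurable
        · refine Eventually.of_forall fun T t => ?_
          rw [norm_mul, norm_mul, norm_mul, norm_ph, norm_ph, one_mul, mul_one]
          exact mul_le_of_le_one_left (norm_nonneg _) (norm_gam_le_one T t)
        · intro t
          have hp : Tendsto (fun T : ℝ => ph (1 / T ^ 2) t) atTop (𝓝 1) := by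
            have h0 : Tendsto (fun T : ℝ => 1 / T ^ 2) atTop (𝓝 0) :=
              tendsto_const_nhds.div_atTop (tendsto_pow_atTop (by norm_num))
            have := ((continuous_ph.comp (continuous_id.prodMk
              (continuous_const (y := t)))).tendsto 0).comp h0
            simpa [ph, Function.comp_def] using this
          simpa using ((tendsto_gam t).mul hp).mul_const (ph (1 - q) t * fourierT ve t)
      have h := ((tendsto_const_nhds (x := orb F a q)).inner (𝕜 := ℂ) this).const_mul
        ((w₂ q * Real.exp (1 - q) : ℝ) : ℂ)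
      convert h using 2
      simp only [Lfun, hve]; push_cast; ring
  have := h1.mul h2
  rw [one_mul] at this
  refine this.congr' ?_
  filter_upwards [eventually_gt_atTop 0] with T hT
  exact (f₂_eq S W hu hT).symm

theorem integral_ineq (hd : Iface.StmtDissip.{u}) (hΩ : IsCS M Ω) (hχ : Test χ)
    (hsupp : ∀ p, χ p ≠ 0 → p ∈ Set.Ioo 0 P) :
    ∫ q in (0 : ℝ)..P, w₂ q * ((Lfun F a u q).re - Rfun D (a Ω) u q) ≤ 0 := by
  have hP := S.pos
  have hLc : Continuous (Lfun F a u) := (Complex.continuous_ofReal.comp (Real.continuous_exp.comp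
    (continuous_const.sub continuous_id))).mul ((continuous_orb F S.bic).inner
      (continuous_shifted (hu.mul_smooth Real.contDiff_exp) _))
  have hRc : Continuous (Rfun D (a Ω) u) :=
    Complex.continuous_re.comp (continuous_const.inner (continuous_shifted hu _))
  have main : ‖∫ q in (0 : ℝ)..P, (w₂ q : ℂ) * Lfun F a u q‖ ≤
      ∫ q in (0 : ℝ)..P, w₂ q * Rfun D (a Ω) u q := by
    have hr := (tendsto_f₁_bound S W hu).add (ilim_small S W hd hΩ hχ hsupp)
    rw [add_zero] at hr
    refine le_of_tendsto_of_tendsto (tendsto_f₂ S W hu).norm hr ?_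
    filter_upwards [eventually_gt_atTop 0] with T hT
    have c1 := continuous_f₁ S W hT
    have c2 := continuous_f₂ S W hT
    have e : ilim P (uw u) w₂ F a T =
        (∫ p in (0 : ℝ)..P, ∫ q in (0 : ℝ)..P, f₁ (uw u) w₂ F a T p q) -
        ∫ p in (0 : ℝ)..P, ∫ q in (0 : ℝ)..P, f₂ (uw u) w₂ F a T p q := by
      rw [ilim, ← intervalIntegral.integral_sub
        ((intervalIntegral.continuous_parametric_intervalIntegral_of_continuous' c1 0
          P).intervalIntegrable _ _)
        ((intervalIntegral.continuous_parametric_intervalIntegral_of_continuous' c2 0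
          P).intervalIntegrable _ _)]
      refine intervalIntegral.integral_congr fun p _ => ?_
      exact intervalIntegral.integral_sub
        ((c1.comp (continuous_const.prodMk continuous_id)).intervalIntegrable _ _)
        ((c2.comp (continuous_const.prodMk continuous_id)).intervalIntegrable _ _)
    rw [e]
    refine (norm_le_norm_add_norm_sub' _ _).trans
      (add_le_add (f₁_le S W hu hT) (norm_sub_rev _ _).le)
  have e1 : ∫ q in (0 : ℝ)..P, w₂ q * (Lfun F a u q).re =
      (∫ q in (0 : ℝ)..P, (w₂ q : ℂ) * Lfun F a u q).re := by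
    have hi : IntervalIntegrable (fun q => (w₂ q : ℂ) * Lfun F a u q) volume 0 P :=
      ((Complex.continuous_ofReal.comp W.test₂.continuous).mul hLc).intervalIntegrable _ _
    rw [← Complex.reCLM_apply, ← Complex.reCLM.intervalIntegral_comp_comm hi]
    simp
  have i1 : IntervalIntegrable (fun q => w₂ q * (Lfun F a u q).re) volume 0 P :=
    (W.test₂.continuous.mul (Complex.continuous_re.comp hLc)).intervalIntegrable _ _
  have i2 : IntervalIntegrable (fun q => w₂ q * Rfun D (a Ω) u q) volume 0 P :=
    (W.test₂.continuous.mul hRc).intervalIntegrable _ _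
  simp only [mul_sub]
  rw [intervalIntegral.integral_sub i1 i2, e1, sub_nonpos]
  exact (Complex.re_le_norm _).trans main

end Vale.Agent.P132.Fixed
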