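import Vale.Agent.P132.Fixed.Beta

/-!
# The generator
-/

namespace Vale.Agent.P132.Fixed

open scoped InnerProductSpace Topology ComplexOrder ComplexConjugate
open Filter MeasureTheory

universe u

variable {H : Type u} [NormedAddCommGroup H] [InnerProductSpace ℂ H] [CompleteSpace H]
  {M : VonNeumannAlgebra H} {Ω : H} {D : ModData M Ω}

/-- The data of one test. -/
structure Setting (M : VonNeumannAlgebra H) (Ω : H) (D : ModData M Ω) (F : FlowData M Ω D)
    (a : H →L[ℂ] H) (P : ℝ) (χ : ℝ → ℝ) : Prop where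
  cl : Closed M Ω D
  bic : InBicentralizer M (vecState Ω) a
  sa : star a = a
  norm : ‖a‖ ≤ 1
  pos : 0 < P
  cont : Continuous χ
  bound : ∀ p, |χ p| ≤ 1

variable (F : FlowData M Ω D) (a : H →L[ℂ] H) (P : ℝ) (χ : ℝ → ℝ) (T : ℝ) (N : ℕ)

/-- The smeared element. -/
noncomputable def xop : H →L[ℂ] H := F.beta (lam P N * Real.exp (-1)) a

/-- The real coefficients of the generator. -/
noncomputable def cf (j k : Fin N) : ℝ :=
  if j = k then 0 else √(stp P N) * χ (node P N j) * χ (node P N k)

/-- The generator. -/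
noncomputable def Lmat (j k : Fin N) : H →L[ℂ] H :=
  (cf P χ N j k : ℂ) • sop D (fun t => gauss T (node P N j - node P N k) (t : ℂ)) (xop F a P N)

/-- `X_E Ω`. -/
noncomputable def gvec (E : ℝ) : H :=
  vint D (fun t => gauss T E (t : ℂ)) (xop F a P N Ω)

variable {F a P χ T N}

theorem kap_mem (hN : 0 < N) :
    0 < lam P N * Real.exp (-1) ∧ lam P N * Real.exp (-1) ≤ 1 :=
  ⟨mul_pos (lam_pos P hN) (Real.exp_pos _),
    mul_le_one₀ (lam_le_one P hN) (Real.exp_pos _).le (Real.exp_le_one_iff.2 (by norm_num))⟩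

variable (S : Setting M Ω D F a P χ)
include S

theorem xop_bic (hN : 0 < N) : InBicentralizer M (vecState Ω) (xop F a P N) :=
  F.mem _ a (kap_mem hN).1 (kap_mem hN).2 S.bic

theorem xop_mem (hN : 0 < N) : xop F a P N ∈ M := (xop_bic S hN).1

theorem xop_sa (hN : 0 < N) : star (xop F a P N) = xop F a P N := by
  rw [xop, ← F.star_eq _ a (kap_mem hN).1 (kap_mem hN).2 S.bic, S.sa]

omit S in
theorem Lmat_omega (hT : 0 < T) (j k : Fin N) :
    Lmat F a P χ T N j k Ω = (cf P χ N j k : ℂ) • gvec F a P T N (node P N j - node P N k) := by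
  rw [Lmat, smul_apply, sop_omega D (integrable_gauss hT _), gvec]

theorem Lmat_mem (hN : 0 < N) (hT : 0 < T) (j k : Fin N) : Lmat F a P χ T N j k ∈ M := by
  rw [← SetLike.mem_coe, ← VonNeumannAlgebra.centralizer_centralizer M, Set.mem_centralizer_iff]
  intro y hy
  have h := Set.mem_centralizer_iff.1 hy _
    (sop_mem D (integrable_gauss hT (node P N j - node P N k)) (xop_mem S hN))
  rw [Lmat, mul_smul_comm, smul_mul_assoc, h]

theorem Lmat_star (hN : 0 < N) (hT : 0 < T) (j k : Fin N) :
    star (Lmat F a P χ T N j k) = Lmat F a P χ T N k j := by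
  have e : cf P χ N k j = cf P χ N j k := by
    unfold cf
    by_cases h : j = k
    · simp [h]
    · rw [if_neg h, if_neg (Ne.symm h)]; ring
  rw [Lmat, Lmat, star_smul, star_sop D (integrable_gauss hT _), xop_sa S hN, e]
  simp [conj_gauss]

omit S in
theorem Lmat_diag (j : Fin N) : Lmat F a P χ T N j j = 0 := by simp [Lmat, cf]

end Vale.Agent.P132.Fixed
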