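import Vale.Agent.P132.Fixed.Beta

/-!
# Reduction to selfadjoint contractions
-/

namespace Vale.Agent.P132.Fixed

open scoped InnerProductSpace Topology ComplexOrder ComplexConjugate

universe u

variable {H : Type u} [NormedAddCommGroup H] [InnerProductSpace ℂ H] [CompleteSpace H]
  {M : VonNeumannAlgebra H} {Ω : H} {D : ModData M Ω}

theorem fixed_of_sa (hcl : Closed M Ω D)
    (h : ∀ b, InBicentralizer M (vecState Ω) b → star b = b → ‖b‖ ≤ 1 →
      ∀ t, D.U t (b Ω) = b Ω)
    {a : H →L[ℂ] H} (ha : InBicentralizer M (vecState Ω) a) (t : ℝ) :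
    D.U t (a Ω) = a Ω := by
  have hsa : ∀ b, InBicentralizer M (vecState Ω) b → star b = b → D.U t (b Ω) = b Ω := by
    intro b hb hbs
    set s : ℂ := (((max ‖b‖ 1)⁻¹ : ℝ) : ℂ)
    have hs : s ≠ 0 := Complex.ofReal_ne_zero.2 (inv_ne_zero (lt_max_of_lt_right one_pos).ne')
    have h1 : star (s • b) = s • b := by rw [star_smul, hbs]; simp [s]
    have h2 : ‖s • b‖ ≤ 1 := by
      rw [norm_smul, Complex.norm_real, Real.norm_of_nonneg (by positivity)]
      exact (mul_le_mul_of_nonneg_left (le_max_left ‖b‖ 1) (by positivity)).trans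
        (inv_mul_cancel₀ (lt_max_of_lt_right one_pos).ne').le
    have := h _ (hcl.smul s b hb) h1 h2 t
    rw [smul_apply, map_smul] at this
    exact smul_right_injective H hs this
  have e1 := hsa (a + star a) (hcl.add _ _ ha (hcl.star a ha))
    (by rw [star_add, star_star]; abel)
  have e2 := hsa (Complex.I • (star a + (-1 : ℂ) • a))
    (hcl.smul _ _ (hcl.add _ _ (hcl.star a ha) (hcl.smul _ _ ha)))
    (by simp [star_smul]; module)
  simp only [add_apply, smul_apply, map_add, map_smul] at e1 e2
  have e3 := smul_right_injective H Complex.I_ne_zero e2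
  have key : (2 : ℂ) • D.U t (a Ω) = (2 : ℂ) • a Ω := by
    have := congrArg₂ (· - ·) e1 e3
    rw [show (2 : ℂ) • D.U t (a Ω) = D.U t (a Ω) + D.U t (star a Ω) -
      (D.U t (star a Ω) + (-1 : ℂ) • D.U t (a Ω)) from by module, this]
    module
  exact smul_right_injective H two_ne_zero key

end Vale.Agent.P132.Fixed
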