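import Vale.Agent.P132.Fixed.Chain
import Vale.Agent.P132.Fixed.Freeze
import Vale.Agent.P132.Fixed.Reduce

/-!
# The bicentralizer is fixed by the modular group
-/

namespace Vale.Agent.P132.Fixed

universe u

/-- StmtFixed from the bicentralizer algebra and the dissipation bound. -/
theorem stmtFixed (hB : Iface.StmtBic.{u}) (hd : Iface.StmtDissip.{u}) : Iface.StmtFixed.{u} := by
  intro H _ _ _ M Ω D hΩ F a ha
  have hcl : Closed M Ω D := closed_of_bic hB hΩ
  refine fun t => fixed_of_sa hcl (fun b hb hbs hbn => ?_) ha t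
  exact fixed_of_pos_zero D hb.1 hbs fun v hv ⟨r, hr, hsupp⟩ =>
    pos_zero F hd hΩ hcl hb hbs hbn hv hr hsupp

end Vale.Agent.P132.Fixed
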