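import Vale.Agent.P132.Fixed.Fourier
import Vale.Agent.P132.Fixed.Beta

/-!
# Positivity of Gaussian windows
-/

namespace Vale.Agent.P132.Fixed

open scoped InnerProductSpace Topology ComplexOrder ComplexConjugate
open Filter MeasureTheory

universe u

variable {H : Type u} [NormedAddCommGroup H] [InnerProductSpace ℂ H] [CompleteSpace H]
  {M : VonNeumannAlgebra H} {Ω : H} (D : ModData M Ω)

/-- The square root of a window. -/
noncomputable def half (T E : ℝ) (ξ : H) : H :=
  vint D (fun t => gauss (T / √2) E (t : ℂ)) ξ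

/-- The constant of the convolution. -/
noncomputable def kconst (T : ℝ) : ℝ := ∫ s : ℝ, Real.exp (-(2 / T ^ 2) * s ^ 2)

theorem kconst_pos {T : ℝ} (hT : 0 < T) : 0 < kconst T := by
  rw [kconst, integral_gaussian]
  positivity

theorem gauss_mul_gauss {T : ℝ} (hT : 0 < T) (E s t : ℝ) :
    gauss (T / √2) E (s : ℂ) * gauss (T / √2) E ((t - s : ℝ) : ℂ) =
      gauss T E (t : ℂ) * ((Real.exp (-(2 / T ^ 2) * (s - t / 2) ^ 2) : ℝ) : ℂ) := by
  rw [gauss_eq, gauss_eq, gauss_eq, gam_ofReal, gam_ofReal, gam_ofReal, mul_mul_mul_comm,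
    mul_right_comm]
  rw [show ph E t = ph E s * ph E (t - s) from by
    rw [ph, ph, ph, ← Complex.exp_add]; congr 1; push_cast; ring]
  rw [mul_right_comm _ (ph E s * ph E (t - s)), mul_right_comm _ (ph E s * ph E (t - s)),
    ← Complex.ofReal_mul, ← Complex.ofReal_mul, ← Real.exp_add, ← Real.exp_add]
  congr 3
  rw [div_pow, div_pow, div_pow, div_pow, Real.sq_sqrt (by norm_num)]
  field_simp
  ring

theorem half_half {T : ℝ} (hT : 0 < T) (E : ℝ) (ξ : H) :
    half D T E (half D T E ξ) =
      (kconst T : ℂ) • vint D (fun t => gauss T E (t : ℂ)) ξ := by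
  set g : ℝ → ℂ := fun t => gauss (T / √2) E (t : ℂ) with hg
  have hgi : Integrable g := integrable_gauss (by positivity) E
  have hgc : Continuous g := by simp only [hg, gauss]; fun_prop
  have hint : Integrable (Function.uncurry fun s t : ℝ => (g s * g (t - s)) • D.U t ξ)
      (volume.prod volume) := by
    have h := (measurePreserving_prod_neg_add (volume : Measure ℝ) volume).integrable_comp
      (g := fun p : ℝ × ℝ => ‖g p.1‖ * ‖g p.2‖) (hgi.norm.mul_prod hgi.norm).1
    have h' := h.2 (hgi.norm.mul_prod hgi.norm)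
    refine (h'.mul_const ‖ξ‖).mono' ?_ (Eventually.of_forall fun p => ?_)
    · exact (((hgc.comp continuous_fst).mul (hgc.comp (continuous_snd.sub continuous_fst))).smul
        ((D.U_cont ξ).comp continuous_snd)).aestronglyMeasurable
    · simp [Function.uncurry, norm_smul, norm_U, neg_add_eq_sub]
  calc half D T E (half D T E ξ) = ∫ s : ℝ, ∫ t : ℝ, (g s * g (t - s)) • D.U t ξ := by
        rw [half, half, vint]
        refine integral_congr_ae (Eventually.of_forall fun s => ?_)
        dsimp only
        rw [U_vint D hgi, vint_U, vint, ← integral_smul]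
        simp only [mul_smul, hg]
    _ = ∫ t : ℝ, ∫ s : ℝ, (g s * g (t - s)) • D.U t ξ := integral_integral_swap hint
    _ = _ := by
        rw [vint, ← integral_smul]
        refine integral_congr_ae (Eventually.of_forall fun t => ?_)
        dsimp only
        rw [integral_smul_const, smul_smul]
        congr 1
        simp only [hg, gauss_mul_gauss hT]
        rw [integral_const_mul, integral_complex_ofReal,
          integral_sub_right_eq_self (fun s => Real.exp (-(2 / T ^ 2) * s ^ 2)) (t / 2), kconst,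
          mul_comm]
where
  vint_U (D : ModData M Ω) (c : ℝ → ℂ) (r : ℝ) (ξ : H) :
      vint D c (D.U r ξ) = vint D (fun t => c (t - r)) ξ := by
    rw [vint, vint, ← integral_add_right_eq_self (fun t => c (t - r) • D.U t ξ) r]
    simp [U_U]

/-- A window is a positive operator. -/
theorem inner_window {T : ℝ} (hT : 0 < T) (E : ℝ) (ζ ξ : H) :
    ⟪ζ, vint D (fun t => gauss T E (t : ℂ)) ξ⟫_ℂ =
      ((kconst T : ℝ) : ℂ)⁻¹ * ⟪half D T E ζ, half D T E ξ⟫_ℂ := by
  have hk : ((kconst T : ℝ) : ℂ) ≠ 0 := by exact_mod_cast (kconst_pos hT).ne'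
  have h : ⟪half D T E ζ, half D T E ξ⟫_ℂ =
      (kconst T : ℂ) * ⟪ζ, vint D (fun t => gauss T E (t : ℂ)) ξ⟫_ℂ := by
    rw [← inner_smul_right, ← half_half D hT]
    exact inner_vint_gauss D _ _ (by positivity) _ _
  rw [h, inv_mul_cancel_left₀ hk]

/-- The windowed spectral density of a vector. -/
noncomputable def dens (T : ℝ) (η : H) (E : ℝ) : ℝ := (kconst T)⁻¹ * ‖half D T E η‖ ^ 2

theorem dens_nonneg {T : ℝ} (hT : 0 < T) (η : H) (E : ℝ) : 0 ≤ dens D T η E :=
  mul_nonneg (inv_nonneg.2 (kconst_pos hT).le) (sq_nonneg _)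

theorem inner_window_self {T : ℝ} (hT : 0 < T) (η : H) (E : ℝ) :
    ⟪η, vint D (fun t => gauss T E (t : ℂ)) η⟫_ℂ = (dens D T η E : ℂ) := by
  rw [inner_window D hT, inner_self_eq_norm_sq_to_K, dens]
  push_cast
  rfl

theorem norm_inner_window_le {T : ℝ} (hT : 0 < T) (E : ℝ) (ζ ξ : H) {r : ℝ} (hr : 0 < r) :
    ‖⟪ζ, vint D (fun t => gauss T E (t : ℂ)) ξ⟫_ℂ‖ ≤
      r / 2 * dens D T ζ E + 1 / (2 * r) * dens D T ξ E := by
  have hk := kconst_pos hT
  rw [inner_window D hT, norm_mul, norm_inv, Complex.norm_real, Real.norm_eq_abs, abs_of_pos hk]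
  refine (mul_le_mul_of_nonneg_left (norm_inner_le_norm _ _) (inv_nonneg.2 hk.le)).trans ?_
  simp only [dens]
  have h : ‖half D T E ζ‖ * ‖half D T E ξ‖ ≤
      r / 2 * ‖half D T E ζ‖ ^ 2 + 1 / (2 * r) * ‖half D T E ξ‖ ^ 2 := by
    have := two_mul_le_add_sq (r * ‖half D T E ζ‖) ‖half D T E ξ‖
    rw [← mul_le_mul_iff_of_pos_left (by positivity : (0 : ℝ) < 2 * r)]
    field_simp
    nlinarith
  calc _ ≤ (kconst T)⁻¹ *
        (r / 2 * ‖half D T E ζ‖ ^ 2 + 1 / (2 * r) * ‖half D T E ξ‖ ^ 2) :=
        mul_le_mul_of_nonneg_left h (inv_nonneg.2 hk.le)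
    _ = _ := by ring

theorem continuous_window {T : ℝ} (hT : 0 < T) (ξ : H) :
    Continuous fun E => vint D (fun t => gauss T E (t : ℂ)) ξ := by
  simp only [gauss_eq, vint]
  apply continuous_of_dominated (bound := fun t : ℝ => ‖gam T t‖ * ‖ξ‖)
  · intro E
    refine AEStronglyMeasurable.smul ?_ (D.U_cont ξ).aestronglyMeasurable
    exact (integrable_gam hT).1.mul
      (continuous_ph.comp (continuous_const.prodMk continuous_id)).aestronglyMeasurable
  · intro E; filter_upwards with t
    rw [norm_smul, norm_mul, norm_ph, mul_one, norm_U]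
  · exact (integrable_gam hT).norm.mul_const _
  · filter_upwards with t
    exact (continuous_const.mul (continuous_ph.comp (continuous_id.prodMk continuous_const))).smul
      continuous_const

theorem continuous_dens {T : ℝ} (hT : 0 < T) (η : H) : Continuous (dens D T η) :=
  continuous_const.mul (((continuous_window D (by positivity : 0 < T / √2) η).norm).pow 2)

theorem integral_inner_window {T : ℝ} (hT : 0 < T) {v : ℝ → ℝ} (hv : Test v) (ζ ξ : H) :
    ∫ E : ℝ, (v E : ℂ) * ⟪ζ, vint D (fun t => gauss T E (t : ℂ)) ξ⟫_ℂ =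
      ⟪ζ, vint D (fun t => gam T t * fourierT v t) ξ⟫_ℂ := by
  rw [← integral_smul_vint D (integrable_gam hT) hv]
  have hi : Integrable fun E : ℝ => (v E : ℂ) • vint D (fun t => gam T t * ph E t) ξ := by
    refine Continuous.integrable_of_hasCompactSupport ?_ ?_
    · exact (Complex.continuous_ofReal.comp hv.continuous).smul (continuous_window D hT ξ)
    · exact (hv.supp.comp_left Complex.ofReal_zero).smul_right
  rw [← integral_inner hi]
  simp only [inner_smul_right]
  rfl

theorem tendsto_gam (t : ℝ) : Tendsto (fun T : ℝ => gam T t) atTop (𝓝 1) := by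
  have h : Tendsto (fun T : ℝ => t / T) atTop (𝓝 0) :=
    tendsto_const_nhds.div_atTop tendsto_id
  have := (((Complex.continuous_ofReal.tendsto 0).comp h).pow 2).neg.div_const 2
  have h2 := (Complex.continuous_exp.tendsto _).comp this
  simp only [Complex.ofReal_zero, ne_eq, OfNat.ofNat_ne_zero, not_false_eq_true, zero_pow, neg_zero,
    zero_div, Complex.exp_zero] at h2
  refine h2.congr fun T => ?_
  simp [gam]

theorem tendsto_dens {v : ℝ → ℝ} (hv : Test v) (η : H) :
    Tendsto (fun T : ℝ => ∫ E : ℝ, v E * dens D T η E) atTop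
      (𝓝 (⟪η, fsmear D v η⟫_ℂ).re) := by
  have h1 : Tendsto (fun T : ℝ => vint D (fun t => gam T t * fourierT v t) η) atTop
      (𝓝 (fsmear D v η)) := by
    rw [fsmear_eq]
    apply tendsto_vint D hv.integrable_fourierT.norm
    · exact Eventually.of_forall fun T =>
        (((continuous_gam T).comp Complex.continuous_ofReal).mul
          hv.continuous_fourierT).aestronglyMeasurable
    · refine Eventually.of_forall fun T t => ?_
      rw [norm_mul]
      exact mul_le_of_le_one_left (norm_nonneg _) (norm_gam_le_one T t)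
    · intro t; simpa using (tendsto_gam t).mul_const (fourierT v t)
  have h2 := (Complex.continuous_re.tendsto _).comp
    ((tendsto_const_nhds (x := η)).inner (𝕜 := ℂ) h1)
  refine h2.congr' ?_
  filter_upwards [eventually_gt_atTop 0] with T hT
  simp only [Function.comp_apply, ← integral_inner_window D hT hv, inner_window_self D hT]
  simp only [← Complex.ofReal_mul, integral_complex_ofReal, Complex.ofReal_re]

theorem fsmear_pos {v : ℝ → ℝ} (hv : Test v) (h0 : ∀ E, 0 ≤ v E) (η : H) :
    0 ≤ (⟪η, fsmear D v η⟫_ℂ).re := by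
  refine ge_of_tendsto (tendsto_dens D hv η) ?_
  filter_upwards [eventually_gt_atTop 0] with T hT
  exact integral_nonneg fun E => mul_nonneg (h0 E) (dens_nonneg D hT η E)

/-- Cauchy-Schwarz for the positive form. -/
theorem fsmear_eq_zero {v : ℝ → ℝ} (hv : Test v) (h0 : ∀ E, 0 ≤ v E) (η : H)
    (hη : (⟪η, fsmear D v η⟫_ℂ).re = 0) : fsmear D v η = 0 := by
  set ζ := fsmear D v η with hζ
  have key : ∀ r : ℝ, 0 < r → ‖⟪ζ, ζ⟫_ℂ‖ ≤ r / 2 * (⟪ζ, fsmear D v ζ⟫_ℂ).re := by
    intro r hr
    have hL : Tendsto (fun T : ℝ =>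
        ∫ E : ℝ, v E * (r / 2 * dens D T ζ E + 1 / (2 * r) * dens D T η E)) atTop
        (𝓝 (r / 2 * (⟪ζ, fsmear D v ζ⟫_ℂ).re + 1 / (2 * r) * 0)) := by
      have := ((tendsto_dens D hv ζ).const_mul (r / 2)).add
        ((tendsto_dens D hv η).const_mul (1 / (2 * r)))
      rw [hη] at this
      refine this.congr' ?_
      filter_upwards [eventually_gt_atTop 0] with T hT
      have i : ∀ ξ : H, Integrable fun E => v E * dens D T ξ E := fun ξ =>
        Continuous.integrable_of_hasCompactSupport (hv.continuous.mul (continuous_dens D hT ξ))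
          hv.supp.mul_right
      rw [← integral_const_mul, ← integral_const_mul,
        ← integral_add ((i ζ).const_mul _) ((i η).const_mul _)]
      congr 1; ext E; ring
    have hR : Tendsto (fun T : ℝ => ‖⟪ζ, vint D (fun t => gam T t * fourierT v t) η⟫_ℂ‖) atTop
        (𝓝 ‖⟪ζ, ζ⟫_ℂ‖) := by
      refine ((tendsto_const_nhds (x := ζ)).inner (𝕜 := ℂ) ?_).norm
      rw [hζ, fsmear_eq]
      apply tendsto_vint D hv.integrable_fourierT.norm
      · exact Eventually.of_forall fun T =>
          (((continuous_gam T).comp Complex.continuous_ofReal).mul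
            hv.continuous_fourierT).aestronglyMeasurable
      · refine Eventually.of_forall fun T t => ?_
        rw [norm_mul]
        exact mul_le_of_le_one_left (norm_nonneg _) (norm_gam_le_one T t)
      · intro t; simpa using (tendsto_gam t).mul_const (fourierT v t)
    rw [mul_zero, add_zero] at hL
    refine le_of_tendsto_of_tendsto hR hL ?_
    filter_upwards [eventually_gt_atTop 0] with T hT
    rw [← integral_inner_window D hT hv]
    refine norm_integral_le_of_norm_le ?_ (Eventually.of_forall fun E => ?_)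
    · exact Continuous.integrable_of_hasCompactSupport (hv.continuous.mul
        ((continuous_const.mul (continuous_dens D hT ζ)).add
          (continuous_const.mul (continuous_dens D hT η)))) hv.supp.mul_right
    · rw [norm_mul, Complex.norm_real, Real.norm_eq_abs, abs_of_nonneg (h0 E)]
      exact mul_le_mul_of_nonneg_left (norm_inner_window_le D hT E ζ η hr) (h0 E)
  have h : ‖⟪ζ, ζ⟫_ℂ‖ ≤ 0 := by
    have hlim : Tendsto (fun r : ℝ => r / 2 * (⟪ζ, fsmear D v ζ⟫_ℂ).re) (𝓝[>] 0) (𝓝 0) := by
      have : Continuous fun r : ℝ => r / 2 * (⟪ζ, fsmear D v ζ⟫_ℂ).re := by fun_prop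
      simpa using (this.tendsto 0).mono_left nhdsWithin_le_nhds
    exact ge_of_tendsto hlim (eventually_nhdsWithin_of_forall key)
  simpa using le_antisymm h (norm_nonneg _)

end Vale.Agent.P132.Fixed
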