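import Vale.Agent.P132.Fixed.Drift
import Vale.Agent.P132.Fixed.Positive

/-!
# The pairing and its limit
-/

namespace Vale.Agent.P132.Fixed

open scoped InnerProductSpace Topology ComplexOrder ComplexConjugate
open Filter MeasureTheory

universe u

variable {H : Type u} [NormedAddCommGroup H] [InnerProductSpace ℂ H] [CompleteSpace H]
  {M : VonNeumannAlgebra H} {Ω : H} {D : ModData M Ω}

/-- The two test weights. -/
structure Weights (P : ℝ) (χ w₁ w₂ : ℝ → ℝ) : Prop where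
  test₁ : Test w₁
  test₂ : Test w₂
  nn₁ : ∀ p, 0 ≤ w₁ p
  nn₂ : ∀ p, 0 ≤ w₂ p
  le₁ : ∀ p, w₁ p ≤ 1
  le₂ : ∀ p, w₂ p ≤ 1
  one₁ : ∀ p, w₁ p ≠ 0 → χ p = 1 ∧ p ∈ Set.Ioo 0 P
  one₂ : ∀ p, w₂ p ≠ 0 → χ p = 1 ∧ p ∈ Set.Ioo 0 P
  disjoint : ∀ p, w₁ p * w₂ p = 0

variable (P : ℝ) (w₁ w₂ : ℝ → ℝ) (N : ℕ)

/-- The scalar matrix of the test. -/
noncomputable def Zmat (j k : Fin N) : ℂ :=
  ((√(stp P N) * w₁ (node P N j) * (w₂ (node P N k) * Real.exp (node P N k)) : ℝ) : ℂ)

variable (F : FlowData M Ω D) (a : H →L[ℂ] H) (T : ℝ)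

/-- The first integrand. -/
noncomputable def f₁ (p q : ℝ) : ℂ :=
  ((w₁ p * w₂ q : ℝ) : ℂ) *
    ⟪orb F a p, vint D (fun t => gauss T (p - q) (t : ℂ)) (orb F a 1)⟫_ℂ

/-- The second integrand. -/
noncomputable def f₂ (p q : ℝ) : ℂ :=
  ((w₁ p * w₂ q * Real.exp (p - q + 1 / (2 * T ^ 2)) : ℝ) : ℂ) *
    ⟪orb F a q, vint D (fun t => gauss T (p - q + 1 / T ^ 2) (t : ℂ)) (orb F a 1)⟫_ℂ

/-- The limit of the pairing. -/
noncomputable def ilim : ℂ :=
  ∫ p in (0 : ℝ)..P, ∫ q in (0 : ℝ)..P, f₁ w₁ w₂ F a T p q - f₂ w₁ w₂ F a T p q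

/-- A bracket of the pairing. -/
noncomputable def brk (b : Fin N → H →L[ℂ] H) (j k : Fin N) : ℂ :=
  ⟪b j Ω, gvec F a P T N (node P N j - node P N k)⟫_ℂ -
    ((Real.exp (node P N j - node P N k + 1 / (2 * T ^ 2)) : ℝ) : ℂ) *
      ⟪b k Ω, gvec F a P T N (node P N j - node P N k + 1 / T ^ 2)⟫_ℂ

variable {P w₁ w₂ N F a T} {χ : ℝ → ℝ}
variable (S : Setting M Ω D F a P χ) (W : Weights P χ w₁ w₂)
include S W

theorem cf_weight (j k : Fin N) :
    cf P χ N j k * (w₁ (node P N j) * w₂ (node P N k)) =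
      √(stp P N) * (w₁ (node P N j) * w₂ (node P N k)) := by
  by_cases h : j = k
  · simp [h, W.disjoint]
  · rcases eq_or_ne (w₁ (node P N j)) 0 with h1 | h1
    · simp [h1]
    rcases eq_or_ne (w₂ (node P N k)) 0 with h2 | h2
    · simp [h2]
    simp [cf, h, (W.one₁ _ h1).1, (W.one₂ _ h2).1]

theorem pairing_eq (hN : 0 < N) (hT : 0 < T) (b : Fin N → H →L[ℂ] H)
    (hb : ∀ j, b j ∈ M ∧ IsSelfAdjoint (b j)) :
    pairing Ω (cw P N) b (Lmat F a P χ T N) (Zmat P w₁ w₂ N) =
      ∑ j : Fin N, ∑ k : Fin N, ((lam P N * stp P N * (w₁ (node P N j) * w₂ (node P N k)) : ℝ) : ℂ) *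
        brk P N F a T b j k := by
  refine Finset.sum_congr rfl fun j _ => Finset.sum_congr rfl fun k _ => ?_
  have e : cf P χ N k j = cf P χ N j k := by
    unfold cf
    by_cases h : j = k
    · simp [h]
    · rw [if_neg h, if_neg (Ne.symm h)]; ring
  have h1 : ⟪Ω, (b j * Lmat F a P χ T N j k) Ω⟫_ℂ = (cf P χ N j k : ℂ) *
      ⟪b j Ω, gvec F a P T N (node P N j - node P N k)⟫_ℂ := by
    rw [mul_apply_eq_comp, Lmat_omega hT, ← inner_smul_right]
    conv_lhs => rw [show b j = star (b j) from (hb j).2.symm, ContinuousLinearMap.star_eq_adjoint,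
      ContinuousLinearMap.adjoint_inner_right]
  have h2 : ⟪Ω, (Lmat F a P χ T N j k * b k) Ω⟫_ℂ = (cf P χ N j k : ℂ) *
      (((Real.exp (node P N j - node P N k + 1 / (2 * T ^ 2)) : ℝ) : ℂ) *
        ⟪b k Ω, gvec F a P T N (node P N j - node P N k + 1 / T ^ 2)⟫_ℂ) := by
    rw [mul_apply_eq_comp, ← Lmat_star S hN hT k j, ContinuousLinearMap.star_eq_adjoint,
      ContinuousLinearMap.adjoint_inner_right, Lmat_omega hT, inner_smul_left, Complex.conj_ofReal,
      e, ← neg_sub (node P N j)]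
    unfold gvec
    rw [kms_inner D (xop_mem S hN) (xop_sa S hN) (hb k).1 (hb k).2 hT]
  rw [sub_apply, inner_sub_right, h1, h2, Zmat, Complex.conj_ofReal, brk, ← mul_sub, ← mul_assoc,
    ← Complex.ofReal_mul, ← Complex.ofReal_mul]
  congr 2
  have h3 : Real.exp (-node P N k) * Real.exp (node P N k) = 1 := by
    rw [← Real.exp_add]; simp
  have h4 : √(stp P N) * √(stp P N) = stp P N := Real.mul_self_sqrt (stp_pos S.pos hN).le
  rw [cw]
  linear_combination (lam P N * √(stp P N) * w₁ (node P N j) * w₂ (node P N k) * cf P χ N j k) *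
    h3 + (lam P N * √(stp P N)) * cf_weight S W j k +
    (lam P N * (w₁ (node P N j) * w₂ (node P N k))) * h4

theorem sum_Zmat_le (hN : 0 < N) :
    ∑ j, ∑ k, cw P N k * ‖Zmat P w₁ w₂ N j k‖ ^ 2 ≤ P * Real.exp P ^ 2 := by
  have hh := (stp_pos S.pos hN).le
  calc _ ≤ ∑ _j : Fin N, ∑ k : Fin N, cw P N k * (stp P N * Real.exp P ^ 2) := by
        refine Finset.sum_le_sum fun j _ => Finset.sum_le_sum fun k _ =>
          mul_le_mul_of_nonneg_left ?_ (cw_pos P hN k).le
        rw [Zmat, Complex.norm_real, Real.norm_eq_abs, sq_abs, mul_pow, mul_pow, Real.sq_sqrt hh,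
          mul_assoc]
        refine mul_le_mul_of_nonneg_left ?_ hh
        calc _ ≤ 1 * Real.exp P ^ 2 := by
              refine mul_le_mul (pow_le_one₀ (W.nn₁ _) (W.le₁ _))
                (pow_le_pow_left₀ (mul_nonneg (W.nn₂ _) (Real.exp_pos _).le) ?_ 2)
                (sq_nonneg _) zero_le_one
              calc w₂ (node P N k) * Real.exp (node P N k) ≤ 1 * Real.exp P :=
                    mul_le_mul (W.le₂ _) (Real.exp_le_exp.2 (node_mem S.pos k.2.le).2)
                      (Real.exp_pos _).le zero_le_one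
                _ = _ := one_mul _
          _ = _ := one_mul _
    _ = _ := by
        simp only [← Finset.sum_mul, sum_cw P hN, Finset.sum_const, Finset.card_univ,
          Fintype.card_fin, nsmul_eq_mul, one_mul, stp]
        field_simp

theorem continuous_f₁ (hT : 0 < T) : Continuous (f₁ w₁ w₂ F a T).uncurry :=
  (Complex.continuous_ofReal.comp ((W.test₁.continuous.comp continuous_fst).mul
    (W.test₂.continuous.comp continuous_snd))).mul
    (((continuous_orb F S.bic).comp continuous_fst).inner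
      ((continuous_window D hT _).comp (continuous_fst.sub continuous_snd)))

theorem continuous_f₂ (hT : 0 < T) : Continuous (f₂ w₁ w₂ F a T).uncurry :=
  (Complex.continuous_ofReal.comp (((W.test₁.continuous.comp continuous_fst).mul
    (W.test₂.continuous.comp continuous_snd)).mul
      (Real.continuous_exp.comp ((continuous_fst.sub continuous_snd).add continuous_const)))).mul
    (((continuous_orb F S.bic).comp continuous_snd).inner
      ((continuous_window D hT _).comp ((continuous_fst.sub continuous_snd).add continuous_const)))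

theorem brk_beta (hN : 0 < N) (hT : 0 < T) (j k : Fin N) :
    ((w₁ (node P N j) * w₂ (node P N k) : ℝ) : ℂ) *
      brk P N F a T (fun i => F.beta (cw P N i) a) j k =
    f₁ w₁ w₂ F a T (node P N j) (node P N k) - f₂ w₁ w₂ F a T (node P N j) (node P N k) := by
  have key : ∀ (i : Fin N) (E : ℝ), ⟪F.beta (cw P N i) a Ω, gvec F a P T N E⟫_ℂ =
      ⟪orb F a (node P N i), vint D (fun t => gauss T E (t : ℂ)) (orb F a 1)⟫_ℂ := by
    intro i E
    rw [gvec, inner_vint D (integrable_gauss hT E), inner_vint D (integrable_gauss hT E)]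
    simp only [cw, xop, inner_scale F S.cl (lam_pos P hN) (lam_le_one P hN) S.bic
      (node_mem S.pos i.2.le).1 zero_le_one]
  rw [brk, key, key, f₁, f₂]
  push_cast
  ring

theorem tendsto_pairing (hT : 0 < T) :
    Tendsto (fun N : ℕ => ((rat P N : ℝ) : ℂ)⁻¹ *
      pairing Ω (cw P N) (fun i => F.beta (cw P N i) a) (Lmat F a P χ T N) (Zmat P w₁ w₂ N))
      atTop (𝓝 (ilim P w₁ w₂ F a T)) := by
  have h := grid2 S.pos (F := fun p q => f₁ w₁ w₂ F a T p q - f₂ w₁ w₂ F a T p q)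
    ((continuous_f₁ S W hT).sub (continuous_f₂ S W hT))
  refine h.congr' ?_
  filter_upwards [eventually_gt_atTop 0] with N hN
  have hb : ∀ i : Fin N, F.beta (cw P N i) a ∈ M ∧ IsSelfAdjoint (F.beta (cw P N i) a) := by
    intro i
    have h1 : cw P N i ≤ 1 := by
      rw [← sum_cw P hN]
      exact Finset.single_le_sum (fun k _ => (cw_pos P hN k).le) (Finset.mem_univ i)
    refine ⟨(F.mem _ a (cw_pos P hN i) h1 S.bic).1, ?_⟩
    rw [IsSelfAdjoint, ← F.star_eq _ a (cw_pos P hN i) h1 S.bic, S.sa]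
  rw [pairing_eq S W hN hT _ hb, Finset.mul_sum]
  refine Finset.sum_congr rfl fun j _ => ?_
  rw [Finset.smul_sum, Finset.mul_sum]
  refine Finset.sum_congr rfl fun k _ => ?_
  rw [smul_smul, Complex.real_smul, ← brk_beta S W hN hT, rat]
  have h1 : (lam P N : ℂ) ≠ 0 := by exact_mod_cast (lam_pos P hN).ne'
  push_cast
  field_simp

/-- The row sums of the test are bounded in the limit. -/
theorem row_bound (hT : 0 < T) {v : ℝ → ℝ} (hv : Test v) (hs : ∀ p, v p ≠ 0 → p ∈ Set.Ioo 0 P) :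
    ∀ᶠ N : ℕ in atTop, ∫ t : ℝ, ‖gam T t‖ *
      ‖∑ k : Fin N, ((stp P N * v (node P N k) : ℝ) : ℂ) * ph (node P N k) t‖ ≤
        (∫ t : ℝ, ‖fourierT v t‖) + 1 := by
  obtain ⟨C, hC⟩ := hv.continuous.bounded_above_of_compact_support hv.supp
  have hlim : Tendsto (fun N : ℕ => ∫ t : ℝ, ‖gam T t‖ *
      ‖∑ k : Fin N, ((stp P N * v (node P N k) : ℝ) : ℂ) * ph (node P N k) t‖) atTop
      (𝓝 (∫ t : ℝ, ‖gam T t‖ * ‖fourierT v t‖)) := by
    apply tendsto_integral_filter_of_dominated_convergence (fun t : ℝ => ‖gam T t‖ * (P * C))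
    · refine Eventually.of_forall fun N => Continuous.aestronglyMeasurable ?_
      exact (((continuous_gam T).comp Complex.continuous_ofReal).norm).mul
        (Continuous.norm (continuous_finsetSum _ fun k _ => continuous_const.mul
          (continuous_ph.comp (continuous_const.prodMk continuous_id))))
    · filter_upwards [eventually_gt_atTop 0] with N hN
      filter_upwards with t
      have hh := (stp_pos S.pos hN).le
      rw [Real.norm_eq_abs, abs_of_nonneg (by positivity)]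
      refine mul_le_mul_of_nonneg_left ?_ (norm_nonneg _)
      refine (norm_sum_le _ _).trans ((Finset.sum_le_sum fun (k : Fin N) _ => ?_).trans_eq
        (b := ∑ _k : Fin N, stp P N * C) ?_)
      · rw [norm_mul, norm_ph, mul_one, Complex.norm_real, norm_mul, Real.norm_of_nonneg hh]
        exact mul_le_mul_of_nonneg_left (hC _) hh
      · simp [stp]; field_simp
    · exact (integrable_gam hT).norm.mul_const _
    · filter_upwards with t
      have hc : Continuous fun q => (v q : ℂ) * ph q t :=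
        (Complex.continuous_ofReal.comp hv.continuous).mul
          (continuous_ph.comp (continuous_id.prodMk continuous_const))
      have h1 := grid1 S.pos hc
      have e : (∫ q in (0 : ℝ)..P, (v q : ℂ) * ph q t) = fourierT v t := by
        rw [intervalIntegral.integral_of_le S.pos.le,
          setIntegral_eq_integral_of_forall_compl_eq_zero, fourierT_apply]
        intro q hq
        have : v q = 0 := by
          by_contra h
          exact hq ⟨(hs q h).1, (hs q h).2.le⟩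
        simp [this]
      rw [e] at h1
      refine (h1.norm.const_mul _).congr fun N => ?_
      congr 2
      refine Finset.sum_congr rfl fun k _ => ?_
      rw [Complex.real_smul]; push_cast; ring
  have hle : ∫ t : ℝ, ‖gam T t‖ * ‖fourierT v t‖ ≤ ∫ t : ℝ, ‖fourierT v t‖ :=
    integral_mono_of_nonneg (Eventually.of_forall fun t => by positivity)
      hv.integrable_fourierT.norm (Eventually.of_forall fun t =>
        mul_le_of_le_one_left (norm_nonneg _) (norm_gam_le_one T t))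
  exact (hlim.eventually (gt_mem_nhds (by linarith :
    (∫ t : ℝ, ‖gam T t‖ * ‖fourierT v t‖) < (∫ t : ℝ, ‖fourierT v t‖) + 1))).mono fun _ h => h.le

theorem norm_xop_omega (hN : 0 < N) : ‖xop F a P N Ω‖ ≤ ‖Ω‖ := by
  refine ((xop F a P N).le_opNorm Ω).trans (mul_le_of_le_one_left (norm_nonneg _) ?_)
  exact (F.norm_le _ a (kap_mem hN).1 (kap_mem hN).2 S.bic).trans S.norm

/-- A row of windows. -/
theorem norm_row_gvec (hΩ : IsCS M Ω) (hN : 0 < N) (hT : 0 < T) (E₀ : ℝ) (v : ℝ → ℝ) {σ : ℝ}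
    (hσ : σ = 1 ∨ σ = -1) :
    ‖∑ k : Fin N, ((stp P N * v (node P N k) : ℝ) : ℂ) •
        gvec F a P T N (E₀ + σ * node P N k)‖ ≤
      ∫ t : ℝ, ‖gam T t‖ *
        ‖∑ k : Fin N, ((stp P N * v (node P N k) : ℝ) : ℂ) * ph (node P N k) t‖ := by
  have hx := (norm_xop_omega S W hN).trans hΩ.norm.le
  simp only [gvec, ← vint_const_mul]
  rw [← vint_sum D _ _ fun k _ => (integrable_gauss hT _).const_mul _]
  refine (norm_vint_le D _ _).trans ?_
  refine (mul_le_of_le_one_right (integral_nonneg fun _ => norm_nonneg _) hx).trans_eq ?_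
  congr 1; ext t
  have : ∑ k : Fin N, ((stp P N * v (node P N k) : ℝ) : ℂ) * gauss T (E₀ + σ * node P N k) (t : ℂ) =
      gam T t * ph E₀ t *
        ∑ k : Fin N, ((stp P N * v (node P N k) : ℝ) : ℂ) * ph (σ * node P N k) t := by
    rw [Finset.mul_sum]
    refine Finset.sum_congr rfl fun k _ => ?_
    rw [gauss_eq, ph_add]; ring
  rw [this, norm_mul, norm_mul, norm_ph, mul_one]
  rcases hσ with rfl | rfl
  · simp
  · congr 1
    rw [← Complex.norm_conj, map_sum]
    simp [conj_ph]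

/-- The first half of the bound. -/
theorem bound_first (hΩ : IsCS M Ω) (hN : 0 < N) (hT : 0 < T) {K₂ : ℝ}
    (hS2 : ∫ t : ℝ, ‖gam T t‖ *
      ‖∑ k : Fin N, ((stp P N * w₂ (node P N k) : ℝ) : ℂ) * ph (node P N k) t‖ ≤ K₂)
    (b : Fin N → H →L[ℂ] H) :
    ‖∑ j : Fin N, ∑ k : Fin N,
      ((lam P N * stp P N * (w₁ (node P N j) * w₂ (node P N k)) : ℝ) : ℂ) *
        ⟪b j Ω, gvec F a P T N (node P N j - node P N k)⟫_ℂ‖ ≤
      ∑ j : Fin N, Real.exp P * cw P N j * (K₂ * ‖b j Ω‖) := by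
  have hl := (lam_pos P hN).le
  set n : ℕ → ℝ := fun i => node P N i with hn
  refine (norm_sum_le _ _).trans (Finset.sum_le_sum fun j _ => ?_)
  have e : ∑ k : Fin N, ((lam P N * stp P N * (w₁ (n j) * w₂ (n k)) : ℝ) : ℂ) *
      ⟪b j Ω, gvec F a P T N (n j - n k)⟫_ℂ = ((lam P N * w₁ (n j) : ℝ) : ℂ) *
        ⟪b j Ω, ∑ k : Fin N, ((stp P N * w₂ (n k) : ℝ) : ℂ) •
          gvec F a P T N (n j + (-1) * n k)⟫_ℂ := by
    rw [inner_sum, Finset.mul_sum]
    refine Finset.sum_congr rfl fun k _ => ?_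
    rw [inner_smul_right, neg_one_mul, ← sub_eq_add_neg]; push_cast; ring
  rw [e, norm_mul, Complex.norm_real, Real.norm_of_nonneg (mul_nonneg hl (W.nn₁ _))]
  refine mul_le_mul ?_ ((norm_inner_le_norm _ _).trans ?_) (norm_nonneg _)
    (mul_nonneg (Real.exp_pos _).le (cw_pos P hN j).le)
  · calc lam P N * w₁ (n j) ≤ lam P N * (Real.exp P * Real.exp (-n j)) := by
          refine mul_le_mul_of_nonneg_left ((W.le₁ _).trans ?_) hl
          rw [← Real.exp_add]; exact Real.one_le_exp (by linarith [(node_mem S.pos j.2.le).2])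
      _ = _ := by rw [cw]; ring
  · rw [mul_comm]
    exact mul_le_mul_of_nonneg_right ((norm_row_gvec S W hΩ hN hT _ _ (Or.inr rfl)).trans hS2) (norm_nonneg _)

/-- The second half of the bound. -/
theorem bound_second (hΩ : IsCS M Ω) (hN : 0 < N) (hT : 1 ≤ T) {K₁ : ℝ}
    (hS1 : ∫ t : ℝ, ‖gam T t‖ * ‖∑ k : Fin N, ((stp P N * (fun p => w₁ p * Real.exp p)
      (node P N k) : ℝ) : ℂ) * ph (node P N k) t‖ ≤ K₁)
    (b : Fin N → H →L[ℂ] H) :
    ‖∑ j : Fin N, ∑ k : Fin N,
      ((lam P N * stp P N * (w₁ (node P N j) * w₂ (node P N k)) : ℝ) : ℂ) *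
      (((Real.exp (node P N j - node P N k + 1 / (2 * T ^ 2)) : ℝ) : ℂ) *
        ⟪b k Ω, gvec F a P T N (node P N j - node P N k + 1 / T ^ 2)⟫_ℂ)‖ ≤
      ∑ k : Fin N, Real.exp 1 * cw P N k * (K₁ * ‖b k Ω‖) := by
  have hl := (lam_pos P hN).le
  set n : ℕ → ℝ := fun i => node P N i with hn
  rw [Finset.sum_comm]
  refine (norm_sum_le _ _).trans (Finset.sum_le_sum fun k _ => ?_)
  have e : ∑ j : Fin N, ((lam P N * stp P N * (w₁ (n j) * w₂ (n k)) : ℝ) : ℂ) *
      (((Real.exp (n j - n k + 1 / (2 * T ^ 2)) : ℝ) : ℂ) *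
        ⟪b k Ω, gvec F a P T N (n j - n k + 1 / T ^ 2)⟫_ℂ) =
      ((lam P N * Real.exp (-n k) * (Real.exp (1 / (2 * T ^ 2)) * w₂ (n k)) : ℝ) : ℂ) *
        ⟪b k Ω, ∑ j : Fin N, ((stp P N * (fun p => w₁ p * Real.exp p) (n j) : ℝ) : ℂ) •
          gvec F a P T N ((-n k + 1 / T ^ 2) + 1 * n j)⟫_ℂ := by
    rw [inner_sum, Finset.mul_sum]
    refine Finset.sum_congr rfl fun j _ => ?_
    rw [inner_smul_right, show -n k + 1 / T ^ 2 + 1 * n j = n j - n k + 1 / T ^ 2 from by ring,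
      show n j - n k + 1 / (2 * T ^ 2) = -n k + 1 / (2 * T ^ 2) + n j from by ring, Real.exp_add,
      Real.exp_add]
    push_cast; ring
  rw [e, norm_mul, Complex.norm_real, Real.norm_of_nonneg (mul_nonneg (mul_nonneg hl
    (Real.exp_pos _).le) (mul_nonneg (Real.exp_pos _).le (W.nn₂ _)))]
  refine mul_le_mul ?_ ((norm_inner_le_norm _ _).trans ?_) (norm_nonneg _)
    (mul_nonneg (Real.exp_pos _).le (cw_pos P hN k).le)
  · calc _ ≤ lam P N * Real.exp (-n k) * (Real.exp 1 * 1) := by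
          refine mul_le_mul_of_nonneg_left (mul_le_mul (Real.exp_le_exp.2 ?_) (W.le₂ _) (W.nn₂ _)
            (Real.exp_pos _).le) (mul_nonneg hl (Real.exp_pos _).le)
          rw [div_le_one (by positivity)]; nlinarith
      _ = _ := by rw [cw]; ring
  · rw [mul_comm]
    exact mul_le_mul_of_nonneg_right ((norm_row_gvec S W hΩ hN (by linarith : 0 < T) (-n k + 1 / T ^ 2) (fun p => w₁ p * Real.exp p) (Or.inl rfl)).trans hS1) (norm_nonneg _)

/-- The pairing is continuous in its argument, uniformly in the width. -/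
theorem pairing_bound (hΩ : IsCS M Ω) (hT : 1 ≤ T) :
    ∀ᶠ N : ℕ in atTop, ∀ b : Fin N → H →L[ℂ] H, (∀ j, b j ∈ M ∧ IsSelfAdjoint (b j)) →
      ‖pairing Ω (cw P N) b (Lmat F a P χ T N) (Zmat P w₁ w₂ N)‖ ≤
        (Real.exp P * (((∫ t : ℝ, ‖fourierT w₂ t‖) + 1) + Real.exp 1 *
          ((∫ t : ℝ, ‖fourierT (fun p => w₁ p * Real.exp p) t‖) + 1))) *
            √(∑ j, cw P N j * ‖b j Ω‖ ^ 2) := by
  have hT0 : 0 < T := by linarith
  have hv₁ : Test fun p => w₁ p * Real.exp p := W.test₁.mul_smooth Real.contDiff_exp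
  have hs₁ : ∀ p, w₁ p * Real.exp p ≠ 0 → p ∈ Set.Ioo 0 P := fun p hp =>
    (W.one₁ p (left_ne_zero_of_mul hp)).2
  filter_upwards [row_bound S W hT0 W.test₂ (fun p hp => (W.one₂ p hp).2),
    row_bound S W hT0 hv₁ hs₁, eventually_gt_atTop 0] with N hS2 hS1 hN b hb
  set K₂ := (∫ t : ℝ, ‖fourierT w₂ t‖) + 1
  set K₁ := (∫ t : ℝ, ‖fourierT (fun p => w₁ p * Real.exp p) t‖) + 1
  have B1 := bound_first S W hΩ hN hT0 hS2 b
  have B2 := bound_second S W hΩ hN hT hS1 b
  have hsum : ∑ j : Fin N, cw P N j * ‖b j Ω‖ ≤ √(∑ j, cw P N j * ‖b j Ω‖ ^ 2) := by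
    refine Real.le_sqrt_of_sq_le ?_
    have := Finset.sum_mul_sq_le_sq_mul_sq Finset.univ (fun j : Fin N => √(cw P N j))
      fun j => √(cw P N j) * ‖b j Ω‖
    simp only [← mul_assoc, Real.mul_self_sqrt (cw_pos P hN _).le, mul_pow,
      Real.sq_sqrt (cw_pos P hN _).le, sum_cw P hN, one_mul] at this
    exact this
  rw [pairing_eq S W hN hT0 b hb]
  simp only [brk, mul_sub, Finset.sum_sub_distrib]
  refine (norm_sub_le _ _).trans ((add_le_add B1 B2).trans ?_)
  have hK₂ : 0 ≤ K₂ := add_nonneg (integral_nonneg fun _ => norm_nonneg _) zero_le_one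
  have hK₁ : 0 ≤ K₁ := add_nonneg (integral_nonneg fun _ => norm_nonneg _) zero_le_one
  calc (∑ j : Fin N, Real.exp P * cw P N j * (K₂ * ‖b j Ω‖)) +
        ∑ k : Fin N, Real.exp 1 * cw P N k * (K₁ * ‖b k Ω‖)
      = (Real.exp P * K₂ + Real.exp 1 * K₁) * ∑ j : Fin N, cw P N j * ‖b j Ω‖ := by
        rw [add_mul, Finset.mul_sum, Finset.mul_sum]
        congr 1 <;> exact Finset.sum_congr rfl fun j _ => by ring
    _ ≤ _ := by
        refine mul_le_mul ?_ hsum (Finset.sum_nonneg fun j _ =>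
          mul_nonneg (cw_pos P hN j).le (norm_nonneg _)) (by positivity)
        have : 1 ≤ Real.exp P := Real.one_le_exp S.pos.le
        rw [mul_add (Real.exp P) K₂]
        exact add_le_add le_rfl (le_mul_of_one_le_left (mul_nonneg (Real.exp_pos _).le hK₁) this)

/-- The limit of the pairing tends to zero as the width grows. -/
theorem ilim_small (hd : Iface.StmtDissip.{u}) (hΩ : IsCS M Ω) (hχ : Test χ)
    (hsupp : ∀ p, χ p ≠ 0 → p ∈ Set.Ioo 0 P) :
    Tendsto (fun T : ℝ => ‖ilim P w₁ w₂ F a T‖) atTop (𝓝 0) := by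
  set C := Real.exp P * (((∫ t : ℝ, ‖fourierT w₂ t‖) + 1) + Real.exp 1 *
    ((∫ t : ℝ, ‖fourierT (fun p => w₁ p * Real.exp p) t‖) + 1)) with hCdef
  have hC : 0 ≤ C := mul_nonneg (Real.exp_pos _).le (add_nonneg
    (add_nonneg (integral_nonneg fun _ => norm_nonneg _) zero_le_one)
    (mul_nonneg (Real.exp_pos _).le (add_nonneg (integral_nonneg fun _ => norm_nonneg _)
      zero_le_one)))
  set K := √(P * Real.exp P ^ 2) with hK
  have hφ : Tendsto (fun η : ℝ => P * (K * √(8 * √η) + 2 * C * √η)) (𝓝[>] 0) (𝓝 0) := by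
    have : Continuous fun η : ℝ => P * (K * √(8 * √η) + 2 * C * √η) := by fun_prop
    simpa using (this.tendsto 0).mono_left nhdsWithin_le_nhds
  rw [Metric.tendsto_nhds]
  intro ε hε
  obtain ⟨η, hηε, hη⟩ : ∃ η : ℝ, P * (K * √(8 * √η) + 2 * C * √η) < ε / 2 ∧ 0 < η :=
    ((hφ.eventually (gt_mem_nhds (by linarith : (0 : ℝ) < ε / 2))).and
      self_mem_nhdsWithin).exists
  obtain ⟨δ, hδ, htr⟩ := F.transfer a S.bic η hη
  have hd0 : 0 < min (η * δ / 8) √η := lt_min (by positivity) (by positivity)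
  filter_upwards [drift_small S hχ hsupp hd0, eventually_ge_atTop 1] with T hTd hT
  have hT0 : 0 < T := by linarith
  rw [dist_zero_right, norm_norm]
  refine lt_of_le_of_lt (le_of_tendsto (tendsto_pairing S W hT0).norm ?_)
    (by linarith : ε / 2 < ε)
  filter_upwards [hTd, pairing_bound S W hΩ hT, eventually_gt_atTop 0] with N hdr hpb hN
  have hc1 : ∀ j : Fin N, cw P N j ≤ 1 := fun j => by
    rw [← sum_cw P hN]
    exact Finset.single_le_sum (fun k _ => (cw_pos P hN k).le) (Finset.mem_univ j)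
  have h := hd H M Ω D hΩ N (cw P N) (fun i => F.beta (cw P N i) a) (Lmat F a P χ T N)
    (Zmat P w₁ w₂ N) δ η C (cw_pos P hN) (sum_cw P hN) hδ hη.le hC
    (fun j => ⟨(F.mem _ a (cw_pos P hN j) (hc1 j) S.bic).1,
      by rw [IsSelfAdjoint, ← F.star_eq _ a (cw_pos P hN j) (hc1 j) S.bic, S.sa],
      (F.norm_le _ a (cw_pos P hN j) (hc1 j) S.bic).trans S.norm⟩)
    (Lmat_mem S hN hT0) (Lmat_star S hN hT0) Lmat_diag
    (fun W' hW' hW'c => htr N (cw P N) W' (cw_pos P hN) (sum_cw P hN) hW' hW'c) hpb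
  set d := drift D (cw P N) (Lmat F a P χ T N) with hdd
  have he : √η + 2 * √(2 * d / δ) ≤ 2 * √η := by
    have : 2 * d / δ ≤ η / 4 := by
      rw [div_le_iff₀ hδ]
      linarith [hdr.trans (min_le_left _ _)]
    have h4 : √(η / 4) = √η / 2 := by
      rw [Real.sqrt_div hη.le]; congr 1
      rw [show (4 : ℝ) = 2 ^ 2 by norm_num]; exact Real.sqrt_sq (by norm_num)
    linarith [(Real.sqrt_le_sqrt this).trans_eq h4]
  have h8 : 2 * (√η + 2 * √(2 * d / δ)) + 4 * d ≤ 8 * √η := by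
    linarith [hdr.trans (min_le_right _ _)]
  have hr : ‖((rat P N : ℝ) : ℂ)⁻¹‖ ≤ P := by
    have hb := (rat_bounds S.pos hN).1
    have hp : 0 < rat P N := lt_of_lt_of_le (by have := S.pos; positivity) hb
    rw [norm_inv, Complex.norm_real, Real.norm_of_nonneg hp.le, inv_le_comm₀ hp S.pos,
      ← one_div]
    exact hb
  rw [norm_mul]
  refine le_trans ?_ hηε.le
  refine mul_le_mul hr (h.trans ?_) (norm_nonneg _) S.pos.le
  refine add_le_add (mul_le_mul (Real.sqrt_le_sqrt (sum_Zmat_le S W hN)) (Real.sqrt_le_sqrt h8)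
    (Real.sqrt_nonneg _) (Real.sqrt_nonneg _)) ?_
  exact (mul_le_mul_of_nonneg_left he hC).trans_eq (by ring)

end Vale.Agent.P132.Fixed
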