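import Vale.Agent.P132.Iface

/-!
# Smeared vectors and operators
-/

namespace Vale.Agent.P132.Fixed

open scoped InnerProductSpace Topology ComplexOrder ComplexConjugate
open Filter MeasureTheory

universe u

variable {H : Type u} [NormedAddCommGroup H] [InnerProductSpace ℂ H] [CompleteSpace H]
  {M : VonNeumannAlgebra H} {Ω : H} (D : ModData M Ω)

theorem U_U (s t : ℝ) (v : H) : D.U s (D.U t v) = D.U (s + t) v := by
  rw [D.U_add]; rfl

theorem U_neg_U (t : ℝ) (v : H) : D.U (-t) (D.U t v) = v := by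
  rw [U_U]; simp [D.U_zero]

theorem U_U_neg (t : ℝ) (v : H) : D.U t (D.U (-t) v) = v := by
  rw [U_U]; simp [D.U_zero]

theorem inner_U_left (t : ℝ) (v w : H) : ⟪D.U t v, w⟫_ℂ = ⟪v, D.U (-t) w⟫_ℂ := by
  rw [← D.U_star, ContinuousLinearMap.star_eq_adjoint, ContinuousLinearMap.adjoint_inner_right]

theorem inner_U_U (t : ℝ) (v w : H) : ⟪D.U t v, D.U t w⟫_ℂ = ⟪v, w⟫_ℂ := by
  rw [inner_U_left, U_neg_U]

theorem norm_U (t : ℝ) (v : H) : ‖D.U t v‖ = ‖v‖ := by
  rw [norm_eq_sqrt_re_inner (𝕜 := ℂ), norm_eq_sqrt_re_inner (𝕜 := ℂ), inner_U_U]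

theorem continuous_U : Continuous fun p : ℝ × H => D.U p.1 p.2 := by
  rw [continuous_iff_continuousAt]
  rintro ⟨t₀, v₀⟩
  have h1 : Tendsto (fun p : ℝ × H => D.U p.1 v₀) (𝓝 (t₀, v₀)) (𝓝 (D.U t₀ v₀)) :=
    (((D.U_cont v₀).comp continuous_fst).tendsto (t₀, v₀))
  have h2 : Tendsto (fun p : ℝ × H => D.U p.1 p.2 - D.U p.1 v₀) (𝓝 (t₀, v₀)) (𝓝 0) := by
    apply squeeze_zero_norm (a := fun p : ℝ × H => ‖p.2 - v₀‖)
    · intro p; rw [← map_sub, norm_U]
    · have : Continuous fun p : ℝ × H => ‖p.2 - v₀‖ := by fun_prop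
      simpa using this.tendsto (t₀, v₀)
  simpa [ContinuousAt] using h2.add h1

theorem continuous_U_comp {α : Type*} [TopologicalSpace α] {f : α → ℝ} {g : α → H}
    (hf : Continuous f) (hg : Continuous g) : Continuous fun a => D.U (f a) (g a) :=
  (continuous_U D).comp (hf.prodMk hg)

theorem J_sub (v w : H) : D.J (v - w) = D.J v - D.J w := by
  have h := D.J_add (v - w) w
  rw [sub_add_cancel] at h
  rw [h]; simp

theorem J_zero : D.J 0 = 0 := by
  simpa using J_sub D 0 0

theorem norm_J (v : H) : ‖D.J v‖ = ‖v‖ := by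
  rw [norm_eq_sqrt_re_inner (𝕜 := ℂ), norm_eq_sqrt_re_inner (𝕜 := ℂ), D.J_inner]

theorem inner_J_left (v w : H) : ⟪D.J v, w⟫_ℂ = ⟪D.J w, v⟫_ℂ := by
  conv_lhs => rw [← D.J_invol w, D.J_inner]

/-- `J` as a real linear isometry. -/
noncomputable def Jlin : H →ₗᵢ[ℝ] H where
  toFun := D.J
  map_add' := D.J_add
  map_smul' r v := by
    change D.J (r • v) = r • D.J v
    rw [← Complex.coe_smul, D.J_smul, Complex.conj_ofReal, Complex.coe_smul]
  norm_map' := norm_J D

theorem continuous_J : Continuous D.J := (Jlin D).continuous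

theorem J_sum {ι : Type*} (s : Finset ι) (f : ι → H) : D.J (∑ i ∈ s, f i) = ∑ i ∈ s, D.J (f i) :=
  map_sum (Jlin D) f s

/-- `∫ c(t) U_t ξ dt`. -/
noncomputable def vint (c : ℝ → ℂ) (ξ : H) : H := ∫ t : ℝ, c t • D.U t ξ

theorem fsmear_eq (v : ℝ → ℝ) (ξ : H) : fsmear D v ξ = vint D (fourierT v) ξ := rfl

theorem integrable_smul_U {c : ℝ → ℂ} (hc : Integrable c) (ξ : H) :
    Integrable fun t => c t • D.U t ξ := by
  refine (hc.norm.mul_const ‖ξ‖).mono' (hc.1.smul (D.U_cont ξ).aestronglyMeasurable) ?_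
  filter_upwards with t
  rw [norm_smul, norm_U]

theorem norm_vint_le (c : ℝ → ℂ) (ξ : H) : ‖vint D c ξ‖ ≤ (∫ t : ℝ, ‖c t‖) * ‖ξ‖ := by
  refine (norm_integral_le_integral_norm _).trans_eq ?_
  simp_rw [norm_smul, norm_U]
  exact integral_mul_const _ _

theorem vint_add_left {c e : ℝ → ℂ} (hc : Integrable c) (he : Integrable e) (ξ : H) :
    vint D (fun t => c t + e t) ξ = vint D c ξ + vint D e ξ := by
  simp only [vint, add_smul]
  exact integral_add (integrable_smul_U D hc ξ) (integrable_smul_U D he ξ)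

theorem vint_sub_left {c e : ℝ → ℂ} (hc : Integrable c) (he : Integrable e) (ξ : H) :
    vint D (fun t => c t - e t) ξ = vint D c ξ - vint D e ξ := by
  simp only [vint, sub_smul]
  exact integral_sub (integrable_smul_U D hc ξ) (integrable_smul_U D he ξ)

theorem vint_const_mul (z : ℂ) (c : ℝ → ℂ) (ξ : H) :
    vint D (fun t => z * c t) ξ = z • vint D c ξ := by
  simp only [vint, mul_smul]
  exact integral_smul z _

theorem vint_add {c : ℝ → ℂ} (hc : Integrable c) (ξ η : H) :
    vint D c (ξ + η) = vint D c ξ + vint D c η := by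
  simp only [vint, map_add, smul_add]
  exact integral_add (integrable_smul_U D hc ξ) (integrable_smul_U D hc η)

theorem vint_smul (c : ℝ → ℂ) (z : ℂ) (ξ : H) : vint D c (z • ξ) = z • vint D c ξ := by
  simp only [vint, map_smul, smul_comm _ z]
  exact integral_smul z _

theorem vint_sum {ι : Type*} (s : Finset ι) (c : ι → ℝ → ℂ) (hc : ∀ i ∈ s, Integrable (c i))
    (ξ : H) : vint D (fun t => ∑ i ∈ s, c i t) ξ = ∑ i ∈ s, vint D (c i) ξ := by
  simp only [vint, Finset.sum_smul]
  exact integral_finsetSum s fun i hi => integrable_smul_U D (hc i hi) ξ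

theorem inner_vint {c : ℝ → ℂ} (hc : Integrable c) (η ξ : H) :
    ⟪η, vint D c ξ⟫_ℂ = ∫ t : ℝ, c t * ⟪η, D.U t ξ⟫_ℂ := by
  rw [vint, ← integral_inner (integrable_smul_U D hc ξ)]
  simp [inner_smul_right]

theorem U_vint {c : ℝ → ℂ} (hc : Integrable c) (r : ℝ) (ξ : H) :
    D.U r (vint D c ξ) = vint D c (D.U r ξ) := by
  rw [vint, ← (D.U r).integral_comp_comm (integrable_smul_U D hc ξ)]
  simp [vint, U_U, add_comm]

theorem J_vint (c : ℝ → ℂ) (ξ : H) :
    D.J (vint D c ξ) = vint D (fun t => conj (c t)) (D.J ξ) := by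
  have := (Jlin D).integral_comp_comm (μ := volume) fun t => c t • D.U t ξ
  refine this.symm.trans ?_
  simp [vint, Jlin, D.J_smul, D.J_U]

/-- Dominated convergence for smeared vectors. -/
theorem tendsto_vint {ι : Type*} {l : Filter ι} [l.IsCountablyGenerated] {c : ι → ℝ → ℂ}
    {c₀ : ℝ → ℂ} {b : ℝ → ℝ} (hb : Integrable b)
    (hm : ∀ᶠ i in l, AEStronglyMeasurable (c i)) (hle : ∀ᶠ i in l, ∀ t, ‖c i t‖ ≤ b t)
    (hlim : ∀ t, Tendsto (fun i => c i t) l (𝓝 (c₀ t))) (ξ : H) :
    Tendsto (fun i => vint D (c i) ξ) l (𝓝 (vint D c₀ ξ)) := by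
  apply tendsto_integral_filter_of_dominated_convergence (fun t => b t * ‖ξ‖)
  · filter_upwards [hm] with i hi
    exact hi.smul (D.U_cont ξ).aestronglyMeasurable
  · filter_upwards [hle] with i hi
    filter_upwards with t
    rw [norm_smul, norm_U]
    exact mul_le_mul_of_nonneg_right (hi t) (norm_nonneg _)
  · exact hb.mul_const _
  · filter_upwards with t
    exact (hlim t).smul_const _

/-- The conjugate `σ_t(x)`. -/
noncomputable def sig (t : ℝ) (x : H →L[ℂ] H) : H →L[ℂ] H := D.U t * x * D.U (-t)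

theorem sig_apply (t : ℝ) (x : H →L[ℂ] H) (v : H) : sig D t x v = D.U t (x (D.U (-t) v)) := rfl

theorem sig_omega (t : ℝ) (x : H →L[ℂ] H) : sig D t x Ω = D.U t (x Ω) := by
  rw [sig_apply, D.U_omega]

theorem sig_U (t s : ℝ) (x : H →L[ℂ] H) (v : H) :
    sig D t x (D.U s v) = D.U s (sig D (t - s) x v) := by
  simp only [sig_apply, U_U]
  congr 2 <;> abel_nf

theorem norm_sig_le (t : ℝ) (x : H →L[ℂ] H) (v : H) : ‖sig D t x v‖ ≤ ‖x‖ * ‖v‖ := by
  rw [sig_apply, norm_U]
  exact (x.le_opNorm _).trans_eq (by rw [norm_U])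

theorem star_sig (t : ℝ) (x : H →L[ℂ] H) : star (sig D t x) = sig D t (star x) := by
  simp [sig, star_mul, D.U_star, mul_assoc]

theorem continuous_sig_comp {α : Type*} [TopologicalSpace α] {f : α → ℝ} {g : α → H}
    (hf : Continuous f) (hg : Continuous g) (x : H →L[ℂ] H) :
    Continuous fun a => sig D (f a) x (g a) := by
  simp only [sig_apply]
  exact continuous_U_comp D hf (x.continuous.comp (continuous_U_comp D hf.neg hg))

theorem integrable_smul_sig {c : ℝ → ℂ} (hc : Integrable c) (x : H →L[ℂ] H) (v : H) :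
    Integrable fun t => c t • sig D t x v := by
  refine (hc.norm.mul_const (‖x‖ * ‖v‖)).mono'
    (hc.1.smul (continuous_sig_comp D continuous_id continuous_const x).aestronglyMeasurable) ?_
  filter_upwards with t
  rw [norm_smul]
  exact mul_le_mul_of_nonneg_left (norm_sig_le D t x v) (norm_nonneg _)

open scoped Classical in
/-- `∫ c(t) σ_t(x) dt`. -/
noncomputable def sop (c : ℝ → ℂ) (x : H →L[ℂ] H) : H →L[ℂ] H :=
  if hc : Integrable c then
    LinearMap.mkContinuous
      { toFun := fun v => ∫ t : ℝ, c t • sig D t x v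
        map_add' := fun v w => by
          simp only [map_add, smul_add]
          exact integral_add (integrable_smul_sig D hc x v) (integrable_smul_sig D hc x w)
        map_smul' := fun z v => by
          simp only [map_smul, smul_comm _ z, RingHom.id_apply]
          exact integral_smul z _ }
      ((∫ t : ℝ, ‖c t‖) * ‖x‖) fun v => by
        refine (norm_integral_le_integral_norm _).trans ?_
        rw [mul_assoc, ← integral_mul_const]
        refine integral_mono (integrable_smul_sig D hc x v).norm (hc.norm.mul_const _) fun t => ?_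
        simp only [norm_smul]
        exact mul_le_mul_of_nonneg_left (norm_sig_le D t x v) (norm_nonneg _)
  else 0

theorem sop_apply {c : ℝ → ℂ} (hc : Integrable c) (x : H →L[ℂ] H) (v : H) :
    sop D c x v = ∫ t : ℝ, c t • sig D t x v := by
  simp [sop, dif_pos hc]

theorem sop_omega {c : ℝ → ℂ} (hc : Integrable c) (x : H →L[ℂ] H) :
    sop D c x Ω = vint D c (x Ω) := by
  simp [sop_apply D hc, sig_omega, vint]

theorem sop_mem {c : ℝ → ℂ} (hc : Integrable c) {x : H →L[ℂ] H} (hx : x ∈ M) :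
    sop D c x ∈ M := by
  rw [← SetLike.mem_coe, ← VonNeumannAlgebra.centralizer_centralizer M, Set.mem_centralizer_iff]
  intro y hy
  ext v
  simp only [mul_apply_eq_comp, sop_apply D hc]
  rw [← y.integral_comp_comm (integrable_smul_sig D hc x v)]
  refine integral_congr_ae (Eventually.of_forall fun t => ?_)
  have h := Set.mem_centralizer_iff.1 hy (sig D t x) (D.U_conj t x hx)
  simp only [map_smul]
  exact congrArg (fun z => c t • z) (congrFun (congrArg DFunLike.coe h.symm) v)

theorem star_sop {c : ℝ → ℂ} (hc : Integrable c) (x : H →L[ℂ] H) :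
    star (sop D c x) = sop D (fun t => conj (c t)) (star x) := by
  have hc' : Integrable fun t => conj (c t) := Complex.conjLIE.toLinearIsometry.toContinuousLinearMap.integrable_comp hc
  rw [ContinuousLinearMap.star_eq_adjoint, eq_comm, ContinuousLinearMap.eq_adjoint_iff]
  intro v w
  rw [sop_apply D hc', sop_apply D hc, ← integral_inner (integrable_smul_sig D hc x w),
    ← inner_conj_symm, ← integral_inner (integrable_smul_sig D hc' (star x) v), ← integral_conj]
  refine integral_congr_ae (Eventually.of_forall fun t => ?_)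
  simp only [inner_smul_right, map_mul, Complex.conj_conj, inner_conj_symm]
  rw [← star_sig, ContinuousLinearMap.star_eq_adjoint, ContinuousLinearMap.adjoint_inner_left]

end Vale.Agent.P132.Fixed
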